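import Vale.Agent.P219.Geo.Linear

/-!
# P219 module Geo.Chr: the Christoffel symbols as a bilinear map

Port of `Vale.Agent.P255.Riem` to a global metric on `ℝ^n`.
-/

open scoped ContDiff Topology
open Set Filter

namespace Vale.Agent.P219

set_option maxSynthPendingDepth 3

variable {n : ℕ} {G : EE n → Form n}

/-- the covector part of the Christoffel symbols -/
noncomputable def chrCov (DG : EE n →L[ℝ] EE n →L[ℝ] EE n →L[ℝ] ℝ) :
    EE n →L[ℝ] EE n →L[ℝ] EE n →L[ℝ] ℝ :=
  (1 / 2 : ℝ) • (DG + DG.flip -
    ((ContinuousLinearMap.flipₗᵢ ℝ (EE n) (EE n)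
      ℝ).toContinuousLinearEquiv.toContinuousLinearMap).comp DG.flip)

/-- the Christoffel symbols as a bilinear map -/
noncomputable def chrBil (G : EE n → Form n) (y : EE n) : EE n →L[ℝ] EE n →L[ℝ] EE n :=
  (ContinuousLinearMap.compL ℝ (EE n) (EE n →L[ℝ] ℝ) (EE n) (G y).inverse).comp
    (chrCov (fderiv ℝ G y))

theorem chrBil_apply (G : EE n → Form n) (y u v : EE n) :
    chrBil G y u v = christoffel G y u v := by
  simp [chrBil, chrCov, christoffel]

theorem IsCH.differentiable (hG : IsCH G) : Differentiable ℝ G :=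
  hG.smooth.differentiable (by simp)

theorem fderiv_metric_apply (hG : IsCH G) (y a b c : EE n) :
    fderiv ℝ G y a b c = fderiv ℝ (fun w => G w b c) y a := by
  rw [(((hG.differentiable y).hasFDerivAt.clm_apply (hasFDerivAt_const b y)).clm_apply
    (hasFDerivAt_const c y)).fderiv]
  simp

theorem fderiv_metric_symm (hG : IsCH G) (y a b c : EE n) :
    fderiv ℝ G y a b c = fderiv ℝ G y a c b := by
  rw [fderiv_metric_apply hG, fderiv_metric_apply hG]
  congr 2
  exact funext fun w => hG.symm w b c

/-- the defining property of the Christoffel symbols -/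
theorem christoffel_apply (hG : IsCH G) (y u v w : EE n) :
    G y (christoffel G y u v) w
      = (fderiv ℝ G y u v w + fderiv ℝ G y v u w - fderiv ℝ G y w u v) / 2 := by
  rw [christoffel, (hG.invertible y).self_apply_inverse]
  simp
  ring

theorem christoffel_comm (hG : IsCH G) (y u v : EE n) :
    christoffel G y u v = christoffel G y v u := by
  rw [christoffel, christoffel]
  congr 1
  ext w
  simp only [smul_apply, add_apply, sub_apply, ContinuousLinearMap.flip_apply]
  rw [fderiv_metric_symm hG y w u v]
  ring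

/-- metric compatibility -/
theorem fderiv_metric (hG : IsCH G) (y a v w : EE n) :
    fderiv ℝ G y a v w = G y (christoffel G y a v) w + G y v (christoffel G y a w) := by
  rw [hG.symm y v, christoffel_apply hG, christoffel_apply hG, fderiv_metric_symm hG y w a v,
    fderiv_metric_symm hG y v a w, fderiv_metric_symm hG y a w v]
  ring

theorem contDiff_chrBil (hG : IsCH G) : ContDiff ℝ ∞ (chrBil G) := by
  rw [contDiff_iff_contDiffAt]
  intro y
  have hd : ContDiffAt ℝ ∞ (fderiv ℝ G) y := hG.smooth.contDiffAt.fderiv_right le_rfl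
  have hflip := (ContinuousLinearMap.flipₗᵢ ℝ (EE n) (EE n) (EE n →L[ℝ] ℝ)).toContinuousLinearEquiv
    |>.toContinuousLinearMap.contDiff.contDiffAt.comp y hd
  have hc : ContDiffAt ℝ ∞ (fun w => chrCov (fderiv ℝ G w)) y :=
    ((hd.add hflip).sub (contDiffAt_const.clm_comp hflip)).const_smul (1 / 2 : ℝ)
  have hi : ContDiffAt ℝ ∞ (fun w => (G w).inverse) y :=
    ((hG.invertible y).contDiffAt_map_inverse).comp y hG.smooth.contDiffAt
  exact ((ContinuousLinearMap.compL ℝ (EE n) (EE n →L[ℝ] ℝ)
    (EE n)).contDiff.contDiffAt.comp y hi).clm_comp hc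

theorem spray_eq_chrBil (G : EE n → Form n) :
    spray G = fun p => (p.2, -chrBil G p.1 p.2 p.2) := by
  funext p
  rw [chrBil_apply]
  rfl

theorem spray_smooth (hG : IsCH G) : ContDiff ℝ ∞ (spray G) := by
  rw [spray_eq_chrBil]
  exact contDiff_snd.prodMk
    ((((contDiff_chrBil hG).comp contDiff_fst).clm_apply contDiff_snd).clm_apply contDiff_snd).neg

theorem fderiv_spray (hG : IsCH G) (q b : EE n × EE n) :
    fderiv ℝ (spray G) q b = (b.2, -(fderiv ℝ (chrBil G) q.1 b.1 q.2 q.2
      + chrBil G q.1 b.2 q.2 + chrBil G q.1 q.2 b.2)) := by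
  have hB := ((contDiff_chrBil hG).differentiable (by simp) q.1).hasFDerivAt
  have hb : HasFDerivAt (fun p : EE n × EE n => chrBil G p.1) _ q :=
    hB.comp (f := Prod.fst) q hasFDerivAt_fst
  have hd := hasFDerivAt_snd.prodMk
    ((hb.clm_apply (hasFDerivAt_snd (p := q))).clm_apply (hasFDerivAt_snd (p := q))).neg
  rw [spray_eq_chrBil,
    HasFDerivAt.fderiv (f := fun p : EE n × EE n => (p.2, -chrBil G p.1 p.2 p.2)) hd]
  simp
  abel

theorem curv_eq_chrBil (hG : IsCH G) (y a b c : EE n) :
    curv G y a b c = fderiv ℝ (chrBil G) y a b c - fderiv ℝ (chrBil G) y b a c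
      + chrBil G y a (chrBil G y b c) - chrBil G y b (chrBil G y a c) := by
  have h := ((contDiff_chrBil hG).differentiable (by simp) y).hasFDerivAt
  have key : ∀ s e : EE n,
      fderiv ℝ (fun z => christoffel G z e c) y s = fderiv ℝ (chrBil G) y s e c := fun s e => by
    simp only [← chrBil_apply]
    rw [((h.clm_apply (hasFDerivAt_const e y)).clm_apply (hasFDerivAt_const c y)).fderiv]
    simp
  simp only [curv, key, chrBil_apply]

/-- `g(R(a,b)b,b) = 0` -/
theorem curv_radial (hG : IsCH G) (y a b : EE n) : G y (curv G y a b b) b = 0 := by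
  have hf2 : ContDiff ℝ ∞ fun w => G w b b :=
    (hG.smooth.clm_apply contDiff_const).clm_apply contDiff_const
  have hev : ∀ e : EE n, (fun w => fderiv ℝ (fun w => G w b b) w e)
      = fun w => 2 * G w (christoffel G w e b) b := fun e => funext fun w => by
    rw [← fderiv_metric_apply hG, fderiv_metric hG, hG.symm w b]
    ring
  have hsnd : ∀ s e : EE n, fderiv ℝ (fderiv ℝ fun w => G w b b) y s e = 2 * (G y
      (fderiv ℝ (fun w => christoffel G w e b) y s) b
      + G y (christoffel G y s (christoffel G y e b)) b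
      + G y (christoffel G y e b) (christoffel G y s b)) := fun s e => by
    have hd := ((hf2.fderiv_right (m := ∞) le_rfl).differentiable (by simp) y).hasFDerivAt
    have e1 : fderiv ℝ (fderiv ℝ fun w => G w b b) y s e
        = fderiv ℝ (fun w => fderiv ℝ (fun w => G w b b) w e) y s := by
      rw [(hd.clm_apply (hasFDerivAt_const e y)).fderiv]
      simp
    have hc : HasFDerivAt (fun w => christoffel G w e b)
        (fderiv ℝ (fun w => christoffel G w e b) y) y := by
      refine DifferentiableAt.hasFDerivAt ?_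
      simp only [← chrBil_apply]
      exact (((contDiff_chrBil hG).clm_apply contDiff_const).clm_apply
        contDiff_const).differentiable (by simp) y
    have h3 := (((hG.differentiable y).hasFDerivAt.clm_apply hc).clm_apply
      (hasFDerivAt_const b y)).const_mul 2
    rw [e1, hev e, h3.fderiv]
    simp only [add_apply, smul_apply, ContinuousLinearMap.comp_apply,
      ContinuousLinearMap.flip_apply, zero_apply, map_zero, zero_add,
      fderiv_metric hG y s (christoffel G y e b) b, smul_eq_mul]
    ring
  have hsym := (hf2.contDiffAt.isSymmSndFDerivAt (x := y) (by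
    rw [minSmoothness_of_isRCLikeNormedField]; exact WithTop.coe_le_coe.2 le_top)).eq a b
  rw [hsnd, hsnd] at hsym
  have hs := hG.symm y (christoffel G y a b) (christoffel G y b b)
  simp only [curv, map_add, map_sub, add_apply, sub_apply]
  linarith

end Vale.Agent.P219
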