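import Vale.Agent.P219.Geo.Exp

/-!
# P219 module Geo.Dist: the distance, convexity of balls, cosines
-/

open scoped ContDiff
open MeasureTheory Set Filter Topology

namespace Vale.Agent.P219

variable {n : ℕ} {G : EE n → Form n}

theorem spray_rev (q : EE n × EE n) :
    spray G (q.1, -q.2) = (-(spray G q).1, (spray G q).2) := by
  have h : christoffel G q.1 (-q.2) (-q.2) = christoffel G q.1 q.2 q.2 := by
    unfold christoffel
    congr 2
    ext w
    simp [sub_eq_add_neg]
  simp [spray, h]

/-- Reversing a geodesic. -/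
theorem flowG_rev (hG : IsCH G) (q : EE n × EE n) (a s : ℝ) :
    flowG hG s ((flowG hG a q).1, -(flowG hG a q).2)
      = ((flowG hG (a - s) q).1, -(flowG hG (a - s) q).2) := by
  have hα : ∀ t, HasDerivAt (fun r => ((flowG hG (a - r) q).1, -(flowG hG (a - r) q).2))
      (spray G ((flowG hG (a - t) q).1, -(flowG hG (a - t) q).2)) t := by
    intro t
    have h := (hasDerivAt_flowG hG q (a - t)).scomp t ((hasDerivAt_id t).const_sub a)
    rw [spray_rev]
    simpa using ((ContinuousLinearMap.fst ℝ (EE n) (EE n)).hasFDerivAt.comp_hasDerivAt t h).prodMk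
      ((ContinuousLinearMap.snd ℝ (EE n) (EE n)).hasFDerivAt.comp_hasDerivAt t h).neg
  simpa using flowG_unique hG hα s

theorem flowG_logG (hG : IsCH G) (x y : EE n) :
    flowG hG 1 (x, logG hG x y) = (y, -logG hG y x) := by
  set v := logG hG x y
  set w := (flowG hG 1 (x, v)).2
  have h1 : (flowG hG 1 (x, v)).1 = y := expG_logG hG x y
  have h2 := flowG_rev hG (x, v) 1 1
  rw [h1, sub_self, flowG_zero] at h2
  have h3 : expG hG y (-w) = x := congrArg Prod.fst h2
  have h4 := logG_expG hG y (-w)
  rw [h3] at h4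
  ext1
  · exact h1
  · simp [w, h4]

theorem gdist_comm (hG : IsCH G) (x y : EE n) : gdist hG x y = gdist hG y x := by
  have h := flowG_speed hG (x, logG hG x y) 1
  rw [flowG_logG] at h
  simp only at h
  rw [← neg_one_smul ℝ (logG hG y x), gnorm_smul hG, abs_neg, abs_one, one_mul] at h
  exact h.symm

theorem continuous_gdist (hG : IsCH G) :
    Continuous fun q : EE n × EE n => gdist hG q.1 q.2 :=
  (continuous_gnorm hG).comp (continuous_fst.prodMk (continuous_logG hG))

/-- the inverse exponential map is short -/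
theorem gnorm_logG_sub_le (hG : IsCH G) (x p q : EE n) :
    gnorm G x (logG hG x p - logG hG x q) ≤ gdist hG p q := by
  obtain ⟨L, hL, -⟩ := exists_det_sq hG x
  set w := logG hG p q
  set γ : ℝ → EE n := geoPt hG (p, w)
  set T : ℝ → EE n := fun t => (flowG hG t (p, w)).2
  have hγ : ∀ t, HasDerivAt γ (T t) t := fun t => by
    have h := (ContinuousLinearMap.fst ℝ (EE n) (EE n)).hasFDerivAt.comp_hasDerivAt t
      (hasDerivAt_flowG hG (p, w) t)
    exact h
  set c : ℝ → EE n := fun t => logG hG x (γ t)
  set c' : ℝ → EE n := fun t => fderiv ℝ (logG hG x) (γ t) (T t)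
  have hc : ∀ t, HasDerivAt c (c' t) t := fun t =>
    ((contDiff_logG hG x).differentiable one_ne_zero (γ t)).hasFDerivAt.comp_hasDerivAt t (hγ t)
  have hb : ∀ t, ‖L (c' t)‖ ≤ gdist hG p q := fun t => by
    have he : fderiv ℝ (expG hG x) (c t) (c' t) = T t := by
      have h := ((contDiff_expG_at hG x).differentiable two_ne_zero
        (c t)).hasFDerivAt.comp_hasDerivAt t (hc t)
      rw [show expG hG x ∘ c = γ from funext fun r => expG_logG hG x (γ r)] at h
      exact h.unique (hγ t)
    have h0 := pullG_mono hG x (c t) (c' t) le_rfl zero_le_one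
    rw [zero_smul, one_smul, pullG_zero, pullG, he,
      show expG hG x (c t) = γ t from expG_logG hG x (γ t)] at h0
    rw [← gnorm_eq_norm_root hL]
    calc gnorm G x (c' t) ≤ gnorm G (γ t) (T t) := Real.sqrt_le_sqrt h0
      _ = gdist hG p q := flowG_speed hG (p, w) t
  have h01 := norm_image_sub_le_of_norm_deriv_le_segment_01'
    (f := fun t => L (c t)) (f' := fun t => L (c' t))
    (fun t _ => ((L : EE n →L[ℝ] EE n).hasFDerivAt.comp_hasDerivAt t (hc t)).hasDerivWithinAt)
    (fun t _ => hb t)
  have h1 : γ 1 = q := expG_logG hG p q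
  have h0 : γ 0 = p := by simp [γ, geoPt, flowG_zero]
  rw [gnorm_eq_norm_root hL, map_sub, norm_sub_rev]
  simpa [c, h0, h1] using h01

theorem gball_eq_image (hG : IsCH G) (o : EE n) (R : ℝ) :
    gball hG o R = expG hG o '' {v | gnorm G o v ≤ R} := by
  ext y
  simp only [gball, gdist, mem_ofPred_eq, mem_image]
  constructor
  · intro h
    exact ⟨logG hG o y, h, expG_logG hG o y⟩
  · rintro ⟨v, hv, rfl⟩
    rwa [logG_expG]

theorem isCompact_gball (hG : IsCH G) (o : EE n) (R : ℝ) : IsCompact (gball hG o R) := by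
  obtain ⟨L, hL, -⟩ := exists_det_sq hG o
  have h : {v : EE n | gnorm G o v ≤ R} = L.toHomeomorph ⁻¹' Metric.closedBall 0 R := by
    ext v
    simp [gnorm_eq_norm_root hL]
  rw [gball_eq_image, h]
  exact (L.toHomeomorph.isCompact_preimage.2 (isCompact_closedBall 0 R)).image
    (contDiff_expG_at hG o).continuous

theorem gball_convex (hG : IsCH G) {o x y : EE n} {R s : ℝ} (hx : x ∈ gball hG o R)
    (hy : y ∈ gball hG o R) (hs : s ∈ Icc (0 : ℝ) 1) :
    expG hG x (s • logG hG x y) ∈ gball hG o R := by
  set v := logG hG x y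
  set m := expG hG x (s • v)
  set w := (flowG hG s (x, v)).2
  have hm : (m, w) = flowG hG s (x, v) :=
    Prod.ext (geoPt_eq_expG hG x v s).symm rfl
  have he : ∀ c : ℝ, expG hG m (c • w) = (flowG hG (c + s) (x, v)).1 := fun c => by
    rw [flowG_add, ← hm]
    simp [expG, flowG_smul]
  have e0 : logG hG m x = (-s) • w := by
    have h := he (-s)
    rw [neg_add_cancel, flowG_zero] at h
    have h' := logG_expG hG m ((-s) • w)
    rwa [h] at h'
  have e1 : logG hG m y = (1 - s) • w := by
    have h := he (1 - s)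
    rw [sub_add_cancel, show (flowG hG 1 (x, v)).1 = y from expG_logG hG x y] at h
    have h' := logG_expG hG m ((1 - s) • w)
    rwa [h] at h'
  set z := logG hG m o
  have b0 : gnorm G m (z - logG hG m x) ≤ R := (gnorm_logG_sub_le hG m o x).trans hx
  have b1 : gnorm G m (z - logG hG m y) ≤ R := (gnorm_logG_sub_le hG m o y).trans hy
  have hz : z = (1 - s) • (z - logG hG m x) + s • (z - logG hG m y) := by
    rw [e0, e1]
    module
  change gdist hG o m ≤ R
  rw [gdist_comm]
  calc gnorm G m z = gnorm G m ((1 - s) • (z - logG hG m x) + s • (z - logG hG m y)) := by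
        rw [← hz]
    _ ≤ gnorm G m ((1 - s) • (z - logG hG m x)) + gnorm G m (s • (z - logG hG m y)) :=
        gnorm_add_le hG m _ _
    _ ≤ R := by
        rw [gnorm_smul hG, gnorm_smul hG, abs_of_nonneg (sub_nonneg.2 hs.2), abs_of_nonneg hs.1]
        have := mul_le_mul_of_nonneg_left b0 (sub_nonneg.2 hs.2)
        have := mul_le_mul_of_nonneg_left b1 hs.1
        linarith

theorem abs_ucos_le_one (hG : IsCH G) (u : EE n → ℝ) (y x : EE n) : |ucos hG u y x| ≤ 1 := by
  have h := abs_apply_le hG x (logG hG x y) (fderiv ℝ u x)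
  rw [mul_comm] at h
  have h0 : 0 ≤ gdist hG x y * conorm G x (fderiv ℝ u x) :=
    mul_nonneg (gnorm_nonneg _ _) (conorm_nonneg _ _)
  rw [ucos, abs_div, abs_of_nonneg h0]
  exact div_le_one_of_le₀ h h0

theorem measurable_ucos (hG : IsCH G) {u : EE n → ℝ} (hu : ContDiff ℝ 1 u) :
    Measurable fun q : EE n × EE n => ucos hG u q.1 q.2 := by
  have hd : Continuous fun q : EE n × EE n => fderiv ℝ u q.2 :=
    (hu.continuous_fderiv one_ne_zero).comp continuous_snd
  have hn : Continuous fun q : EE n × EE n => fderiv ℝ u q.2 (logG hG q.2 q.1) :=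
    hd.clm_apply ((continuous_logG hG).comp (continuous_snd.prodMk continuous_fst))
  have hden : Continuous fun q : EE n × EE n =>
      gdist hG q.2 q.1 * conorm G q.2 (fderiv ℝ u q.2) :=
    ((continuous_gdist hG).comp (continuous_snd.prodMk continuous_fst)).mul
      ((continuous_conorm hG).comp (continuous_snd.prodMk hd))
  exact hn.measurable.div hden.measurable

end Vale.Agent.P219
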