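import Vale.Agent.P219.Geo.Linear

/-!
# P219 module Geo.Exp: global inverse of a map which expands lengths

If `e : ℝⁿ → ℝⁿ` is `C¹` and never shrinks the length of a vector measured in a fixed norm at the
source and in the metric `G` at the target, then segments lift, and `e` is a bijection.
Port of `Vale.Agent.P255.NPC.SegmentLift` to `ℝⁿ` without the restriction to subsets.
-/

open scoped ContDiff
open Set Filter Topology

namespace Vale.Agent.P219

variable {n : ℕ} {G : EE n → Form n}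

/-- A `C¹` map expanding lengths from the norm at `x` to the metric. -/
structure Expands (G : EE n → Form n) (x : EE n) (e : EE n → EE n) : Prop where
  smooth : ContDiff ℝ 1 e
  expand : ∀ v w, gnorm G x w ≤ gnorm G (e v) (fderiv ℝ e v w)

namespace Expands

variable {x : EE n} {e : EE n → EE n}

theorem exists_equiv (hG : IsCH G) (H : Expands G x e) (v : EE n) :
    ∃ A : EE n ≃L[ℝ] EE n, HasFDerivAt e (A : EE n →L[ℝ] EE n) v := by
  have hi : Function.Injective (fderiv ℝ e v).toLinearMap := by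
    refine (injective_iff_map_eq_zero _).2 fun w hw => ?_
    have h := H.expand v w
    have hw' : fderiv ℝ e v w = 0 := hw
    rw [hw', (gnorm_eq_zero hG).2 rfl] at h
    exact (gnorm_eq_zero hG).1 (le_antisymm h (gnorm_nonneg x w))
  let A := (LinearEquiv.ofBijective (fderiv ℝ e v).toLinearMap
    ⟨hi, LinearMap.injective_iff_surjective.1 hi⟩).toContinuousLinearEquiv
  refine ⟨A, ?_⟩
  convert! ((H.smooth.differentiable one_ne_zero) v).hasFDerivAt using 1

/-- a local inverse, differentiable at every point of its domain -/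
theorem exists_chart (hG : IsCH G) (H : Expands G x e) (v : EE n) :
    ∃ φ : OpenPartialHomeomorph (EE n) (EE n), v ∈ φ.source ∧ (φ : EE n → EE n) = e ∧
      ∀ y ∈ φ.target, ∃ D : EE n →L[ℝ] EE n, HasFDerivAt φ.symm D y ∧
        (∀ w, gnorm G x (D w) ≤ gnorm G y w) ∧ ContDiffAt ℝ 1 φ.symm y := by
  obtain ⟨A, hA⟩ := H.exists_equiv hG v
  let φ := H.smooth.contDiffAt.toOpenPartialHomeomorph e hA one_ne_zero
  have hcoe : (φ : EE n → EE n) = e := rfl
  refine ⟨φ, H.smooth.contDiffAt.mem_toOpenPartialHomeomorph_source hA one_ne_zero, hcoe,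
    fun y hy => ?_⟩
  obtain ⟨C, hC⟩ := H.exists_equiv hG (φ.symm y)
  refine ⟨(C.symm : EE n →L[ℝ] EE n), φ.hasFDerivAt_symm hy (by rw [hcoe]; exact hC),
    fun w => ?_, φ.contDiffAt_symm hy (by rw [hcoe]; exact hC)
      (by rw [hcoe]; exact H.smooth.contDiffAt)⟩
  have h := H.expand (φ.symm y) (C.symm w)
  have hy' : e (φ.symm y) = y := φ.right_inv hy
  rw [hC.fderiv, hy'] at h
  simpa using h

theorem isLocalHomeomorph (hG : IsCH G) (H : Expands G x e) : IsLocalHomeomorph e :=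
  IsLocalHomeomorph.mk e fun v => by
    obtain ⟨φ, hφ, hc, -⟩ := H.exists_chart hG v
    exact ⟨φ, hφ, fun a _ => by rw [hc]⟩

theorem eq_of_lifts (hG : IsCH G) (H : Expands G x e) {A : Type*} [TopologicalSpace A]
    [PreconnectedSpace A] {g₁ g₂ : A → EE n} (h₁ : Continuous g₁) (h₂ : Continuous g₂)
    (he : ∀ a, e (g₁ a) = e (g₂ a)) (a : A) (ha : g₁ a = g₂ a) : g₁ = g₂ :=
  (T2Space.isSeparatedMap e).eq_of_comp_eq (H.isLocalHomeomorph hG).isLocallyInjective h₁ h₂
    (funext he) a ha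

/-- `w` lifts the segment from `e v` to `y` up to time `T`, starting at `v` -/
def IsLift (e : EE n → EE n) (v y : EE n) (T : ℝ) (w : ℝ → EE n) : Prop :=
  ContinuousOn w (Icc 0 T) ∧ w 0 = v ∧
    ∀ t ∈ Icc (0 : ℝ) T, e (w t) = e v + t • (y - e v)

theorem lift_mono {v y : EE n} {T T' : ℝ} {w : ℝ → EE n} (hw : IsLift e v y T w) (h : T' ≤ T) :
    IsLift e v y T' w :=
  ⟨hw.1.mono (Icc_subset_Icc le_rfl h), hw.2.1, fun t ht => hw.2.2 t ⟨ht.1, ht.2.trans h⟩⟩

theorem lift_unique (hG : IsCH G) (H : Expands G x e) {v y : EE n} {T : ℝ} {w w' : ℝ → EE n}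
    (hw : IsLift e v y T w) (hw' : IsLift e v y T w') {t : ℝ} (ht : t ∈ Icc (0 : ℝ) T) :
    w t = w' t := by
  have : PreconnectedSpace (Icc (0 : ℝ) T) := Subtype.preconnectedSpace isPreconnected_Icc
  have h := H.eq_of_lifts hG (A := Icc (0 : ℝ) T) (g₁ := fun a => w a) (g₂ := fun a => w' a)
    hw.1.domRestrict hw'.1.domRestrict
    (fun a => (hw.2.2 a a.2).trans (hw'.2.2 a a.2).symm)
    ⟨0, le_rfl, ht.1.trans ht.2⟩ (hw.2.1.trans hw'.2.1.symm)
  exact congr_fun h ⟨t, ht⟩

/-- lifts of one segment are uniformly Lipschitz -/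
theorem exists_lipschitz (hG : IsCH G) (H : Expands G x e) (v y : EE n) :
    ∃ K : NNReal, ∀ (T : ℝ) (w : ℝ → EE n), T ≤ 1 → IsLift e v y T w →
      LipschitzOnWith K w (Icc 0 T) := by
  set g : ℝ → EE n := fun u => e v + u • (y - e v) with hg
  have hgc : Continuous fun u : ℝ => gnorm G (g u) (y - e v) :=
    (continuous_gnorm hG).comp (f := fun u : ℝ => (g u, y - e v)) (by fun_prop)
  obtain ⟨C, hC⟩ := isCompact_Icc.exists_bound_of_continuousOn
    (hgc.continuousOn (s := Icc (0 : ℝ) 1))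
  obtain ⟨L, hL, -⟩ := exists_det_sq hG x
  set M := ‖(L.symm : EE n →L[ℝ] EE n)‖
  refine ⟨Real.toNNReal (M * C), fun T w hT hw => ?_⟩
  have hd : ∀ u ∈ Ico 0 T, ∃ d, HasDerivWithinAt w d (Icc 0 T ∩ Ici u) u ∧ ‖d‖ ≤ M * C := by
    intro u hu
    have huT : u ∈ Icc (0 : ℝ) T := Ico_subset_Icc_self hu
    obtain ⟨φ, hφ, hc, hD⟩ := H.exists_chart hG (w u)
    have hgu : φ (w u) = g u := by rw [hc]; exact hw.2.2 u huT
    obtain ⟨D, hD, hDb, -⟩ := hD (g u) (hgu ▸ φ.map_source hφ)
    have hgd : HasDerivAt g (y - e v) u := by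
      simpa [hg] using ((hasDerivAt_id u).smul_const (y - e v)).const_add (e v)
    refine ⟨D (y - e v), ?_, ?_⟩
    · have hev : w =ᶠ[𝓝[Icc 0 T ∩ Ici u] u] φ.symm ∘ g := by
        have hcw : ContinuousWithinAt w (Icc 0 T ∩ Ici u) u := (hw.1 u huT).mono inter_subset_left
        filter_upwards [self_mem_nhdsWithin, hcw (φ.open_source.mem_nhds hφ)] with a ha ha'
        simp only [Function.comp_apply]
        rw [show g a = φ (w a) by rw [hc]; exact (hw.2.2 a ha.1).symm, φ.left_inv ha']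
      exact ((hD.comp_hasDerivAt u hgd).hasDerivWithinAt).congr_of_eventuallyEq hev
        (by simp only [Function.comp_apply]; rw [← hgu, φ.left_inv hφ])
    · have h1 : ‖L (D (y - e v))‖ = gnorm G x (D (y - e v)) := by
        rw [gnorm, hL, real_inner_self_eq_norm_sq, Real.sqrt_sq (norm_nonneg _)]
      have h2 : gnorm G x (D (y - e v)) ≤ C :=
        (hDb _).trans ((le_abs_self _).trans (hC u ⟨hu.1, hu.2.le.trans hT⟩))
      have h3 := (L.symm : EE n →L[ℝ] EE n).le_opNorm (L (D (y - e v)))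
      simp only [ContinuousLinearEquiv.coe_coe, ContinuousLinearEquiv.symm_apply_apply] at h3
      exact h3.trans (mul_le_mul_of_nonneg_left (h1 ▸ h2) (norm_nonneg _))
  choose! d hd using hd
  refine lipschitzOnWith_iff_norm_sub_le.2 fun s hs t ht => ?_
  wlog hst : t ≤ s generalizing s t
  · rw [norm_sub_rev, norm_sub_rev s t]
    exact this t ht s hs (le_of_not_ge hst)
  have hsub : Icc t s ⊆ Icc (0 : ℝ) T := Icc_subset_Icc ht.1 hs.2
  refine (norm_image_sub_le_of_norm_deriv_right_le_segment (hw.1.mono hsub)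
    (f' := d) (fun u hu => ?_) (fun u hu => (hd u ⟨ht.1.trans hu.1, hu.2.trans_le hs.2⟩).2)
    s (right_mem_Icc.2 hst)).trans ?_
  · refine (hd u ⟨ht.1.trans hu.1, hu.2.trans_le hs.2⟩).1.mono_of_mem_nhdsWithin ?_
    exact inter_mem (mem_of_superset (Icc_mem_nhdsGE (hu.2.trans_le hs.2))
      (Icc_subset_Icc (ht.1.trans hu.1) le_rfl)) self_mem_nhdsWithin
  · rw [Real.norm_eq_abs, abs_of_nonneg (sub_nonneg.2 hst)]
    exact mul_le_mul_of_nonneg_right (Real.le_coe_toNNReal _) (sub_nonneg.2 hst)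

theorem lift_extend (hG : IsCH G) (H : Expands G x e) {v y : EE n} {T : ℝ} (hT : 0 ≤ T)
    {w : ℝ → EE n} (hw : IsLift e v y T w) : ∃ T' > T, ∃ w', IsLift e v y T' w' := by
  obtain ⟨φ, hφ, hc, -⟩ := H.exists_chart hG (w T)
  set g : ℝ → EE n := fun u => e v + u • (y - e v) with hg
  have hgT : φ (w T) = g T := by rw [hc]; exact hw.2.2 T ⟨hT, le_rfl⟩
  have hgc : Continuous g := by fun_prop
  obtain ⟨ε, hε, hball⟩ := Metric.mem_nhds_iff.1
    (hgc.continuousAt.preimage_mem_nhds (φ.open_target.mem_nhds (hgT ▸ φ.map_source hφ)))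
  refine ⟨T + ε / 2, by linarith, fun u => if u ≤ T then w u else φ.symm (g u), ?_, ?_, ?_⟩
  · refine ContinuousOn.if (fun a ha => ?_) (hw.1.mono fun a ha => ?_)
      (φ.continuousOn_symm.comp hgc.continuousOn fun a ha => ?_)
    · obtain rfl : a = T := by
        simpa [show {a : ℝ | a ≤ T} = Iic T from rfl, frontier_Iic] using ha.2
      rw [← hgT, φ.left_inv hφ]
    · rw [show {a : ℝ | a ≤ T} = Iic T from rfl, closure_Iic] at ha
      exact ⟨ha.1.1, ha.2⟩
    · have h2 : T ≤ a := by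
        have := ha.2
        rwa [show {a : ℝ | ¬a ≤ T} = Ioi T by ext; simp, closure_Ioi] at this
      refine hball (Metric.mem_ball.2 ?_)
      rw [Real.dist_eq, abs_of_nonneg (by linarith)]
      linarith [ha.1.2]
  · simp [hT, hw.2.1]
  · intro t ht
    by_cases h : t ≤ T
    · simpa [h] using hw.2.2 t ⟨ht.1, h⟩
    · have : g t ∈ φ.target := by
        refine hball (Metric.mem_ball.2 ?_)
        rw [Real.dist_eq, abs_of_nonneg (by linarith [not_le.1 h])]
        linarith [ht.2]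
      simp only [if_neg h]
      exact (congrFun hc _).symm.trans (φ.right_inv this)

theorem exists_lift (hG : IsCH G) (H : Expands G x e) (v y : EE n) :
    ∃ w, IsLift e v y 1 w := by
  by_contra hne
  obtain ⟨K, hK⟩ := H.exists_lipschitz hG v y
  let S : Set ℝ := {T | 0 ≤ T ∧ ∃ w, IsLift e v y T w}
  have h0 : (0 : ℝ) ∈ S := ⟨le_rfl, fun _ => v, continuousOn_const, rfl, fun t ht => by
    obtain rfl : t = 0 := le_antisymm ht.2 ht.1
    simp⟩
  have hS : ∀ T ∈ S, T < 1 := fun T ⟨_, w, hw⟩ => not_le.1 fun h => hne ⟨w, lift_mono hw h⟩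
  have hbdd : BddAbove S := ⟨1, fun T hT => (hS T hT).le⟩
  set b := sSup S
  have hb0 : 0 ≤ b := le_csSup hbdd h0
  have hb1 : b ≤ 1 := csSup_le ⟨0, h0⟩ fun T hT => (hS T hT).le
  have hlow : ∀ t < b, ∃ T ∈ S, t < T := fun t ht => exists_lt_of_lt_csSup ⟨0, h0⟩ ht
  choose! Tf hTf using hlow
  have hlifts : ∀ T, T ∈ S → ∃ w, IsLift e v y T w := fun T h => h.2
  choose! wf hwf using hlifts
  let om : ℝ → EE n := fun t => wf (Tf t) t
  have hωeq : ∀ t T, 0 ≤ t → t < b → T ∈ S → t ≤ T → wf T t = om t := by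
    intro t T ht htb hT htT
    have h1 := hTf t htb
    rcases le_total T (Tf t) with h | h
    · exact H.lift_unique hG (hwf T hT) (lift_mono (hwf _ h1.1) h) ⟨ht, htT⟩
    · exact H.lift_unique hG (lift_mono (hwf T hT) h) (hwf _ h1.1) ⟨ht, h1.2.le⟩
  have hlip : LipschitzOnWith K om (Ico 0 b) := by
    refine lipschitzOnWith_iff_norm_sub_le.2 fun s hs t ht => ?_
    obtain ⟨h1, h2⟩ := hTf (max s t) (max_lt hs.2 ht.2)
    have hs' : s ≤ Tf (max s t) := (le_max_left s t).trans h2.le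
    have ht' : t ≤ Tf (max s t) := (le_max_right s t).trans h2.le
    rw [← hωeq s _ hs.1 hs.2 h1 hs', ← hωeq t _ ht.1 ht.2 h1 ht']
    exact lipschitzOnWith_iff_norm_sub_le.1 (hK _ _ (hS _ h1).le (hwf _ h1)) ⟨hs.1, hs'⟩
      ⟨ht.1, ht'⟩
  obtain ⟨om', hom'lip, heq⟩ := hlip.extend_finite_dimension
  have key : ∃ w, IsLift e v y b w := by
    rcases hb0.lt_or_eq with hbpos | hbz
    swap
    · exact ⟨wf 0, hbz ▸ hwf 0 h0⟩
    refine ⟨om', hom'lip.continuous.continuousOn, ?_, ?_⟩
    · rw [← heq ⟨le_rfl, hbpos⟩, ← hωeq 0 0 le_rfl hbpos h0 le_rfl]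
      exact (hwf 0 h0).2.1
    have hin : EqOn (fun s => e (om' s)) (fun s => e v + s • (y - e v)) (Ico 0 b) := fun s hs => by
      simp only [← heq hs]
      exact (hwf _ (hTf s hs.2).1).2.2 s ⟨hs.1, (hTf s hs.2).2.le⟩
    have hcl := hin.closure (H.smooth.continuous.comp hom'lip.continuous) (by fun_prop)
    rw [closure_Ico hbpos.ne] at hcl
    exact fun t ht => hcl ht
  obtain ⟨w, hw⟩ := key
  obtain ⟨T', hT', w', hw'⟩ := H.lift_extend hG hb0 hw
  have := le_csSup hbdd (show T' ∈ S from ⟨hb0.trans hT'.le, w', hw'⟩)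
  linarith

/-- `e` is a bijection -/
theorem bijective (hG : IsCH G) (H : Expands G x e) : Function.Bijective e := by
  choose w hw using H.exists_lift hG 0
  let Γ : unitInterval × EE n → EE n := fun q => w q.2 q.1
  have hlift : ∀ q : unitInterval × EE n, e (Γ q) = e 0 + (q.1 : ℝ) • (q.2 - e 0) :=
    fun q => (hw q.2).2.2 q.1 q.1.2
  have hΓ : Continuous Γ := by
    refine (H.isLocalHomeomorph hG).continuous_lift (T2Space.isSeparatedMap _)
      ⟨fun q : unitInterval × EE n => e 0 + (q.1 : ℝ) • (q.2 - e 0), by fun_prop⟩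
      (funext hlift) ?_ (fun a => ?_)
    · convert continuous_const (X := EE n) (y := (0 : EE n)) using 1
      exact funext fun a => (hw a).2.1
    · exact (hw a).1.comp_continuous continuous_subtype_val fun t => t.2
  let σ : EE n → EE n := fun y => Γ (1, y)
  have hσc : Continuous σ := hΓ.comp (continuous_const.prodMk continuous_id)
  have hσ : ∀ y, e (σ y) = y := fun y => by
    show e (Γ (1, y)) = y
    simp [hlift]
  have h0 : σ (e 0) = 0 := by
    have h := H.lift_unique hG (hw (e 0))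
      (w' := fun _ => 0) ⟨continuousOn_const, rfl, fun t _ => by simp⟩
      (t := 1) ⟨zero_le_one, le_rfl⟩
    exact h
  have heq : (fun v => σ (e v)) = id :=
    H.eq_of_lifts hG (hσc.comp H.smooth.continuous) continuous_id (fun v => hσ (e v)) 0 h0
  exact ⟨fun a b hab => by
    have ha := congr_fun heq a
    have hb := congr_fun heq b
    simp only [id_eq] at ha hb
    rw [← ha, ← hb, hab], fun y => ⟨σ y, hσ y⟩⟩

end Expands

end Vale.Agent.P219
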