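import Vale.Agent.P219.Geo.Jacobi
import Vale.Agent.P219.Geo.Lift

/-!
# P219 module Geo.Exp: the exponential map (Cartan-Hadamard, Gauss lemma, Rauch, CN)
-/

open scoped ContDiff
open MeasureTheory Set Filter Topology

namespace Vale.Agent.P219

variable {n : ℕ} {G : EE n → Form n}

/-- the exponential map expands lengths -/
theorem expands_expG (hG : IsCH G) (x : EE n) : Expands G x (expG hG x) := by
  refine ⟨(contDiff_expG_at hG x).of_le (by norm_num), fun v w => Real.sqrt_le_sqrt ?_⟩
  have h := pullG_mono hG x v w le_rfl zero_le_one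
  rw [zero_smul, one_smul, pullG_zero] at h
  exact h

theorem bijective_expG (hG : IsCH G) (x : EE n) : Function.Bijective (expG hG x) := (expands_expG hG x).bijective hG

theorem expG_logG (hG : IsCH G) (x y : EE n) : expG hG x (logG hG x y) = y := Function.invFun_eq ((bijective_expG hG x).surjective y)

theorem logG_expG (hG : IsCH G) (x v : EE n) : logG hG x (expG hG x v) = v := Function.leftInverse_invFun (bijective_expG hG x).injective v

theorem contDiff_logG (hG : IsCH G) (x : EE n) : ContDiff ℝ 1 (logG hG x) := by
  refine contDiff_iff_contDiffAt.2 fun y => ?_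
  obtain ⟨φ, hφ, hc, hD⟩ := (expands_expG hG x).exists_chart hG (logG hG x y)
  have hy : y ∈ φ.target := by
    have := φ.map_source hφ
    rwa [hc, expG_logG] at this
  obtain ⟨D, -, -, hs⟩ := hD y hy
  refine hs.congr_of_eventuallyEq (eventually_of_mem (φ.open_target.mem_nhds hy) fun z hz => ?_)
  refine (bijective_expG hG x).injective ?_
  rw [expG_logG, ← hc, φ.right_inv hz]

theorem continuous_logG (hG : IsCH G) :
    Continuous fun q : EE n × EE n => logG hG q.1 q.2 := by
  let P : EE n × EE n → EE n × EE n := fun q => (q.1, expG hG q.1 q.2)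
  have hP : ContDiff ℝ 2 P := contDiff_fst.prodMk (contDiff_expG hG)
  have hloc : IsLocalHomeomorph P := by
    refine IsLocalHomeomorph.mk P fun q => ?_
    obtain ⟨x, v⟩ := q
    have hd := ((hP.differentiable (by norm_num)) (x, v)).hasFDerivAt
    have h1 : ∀ w, (fderiv ℝ P (x, v) w).1 = w.1 := fun w => by
      have h := (hasFDerivAt_fst (p := P (x, v))).comp (x, v) hd
      exact congrArg (fun L : EE n × EE n →L[ℝ] EE n => L w)
        (h.unique (hasFDerivAt_fst (p := (x, v))))
    have h2 : ∀ b : EE n, fderiv ℝ P (x, v) (0, b) = (0, fderiv ℝ (expG hG x) v b) := fun b => by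
      have he := (((contDiff_expG_at hG x).differentiable (by norm_num)) v).hasFDerivAt
      have h := hd.comp v ((hasFDerivAt_const x v).prodMk (hasFDerivAt_id v))
      exact congrArg (fun L : EE n →L[ℝ] EE n × EE n => L b)
        (h.unique ((hasFDerivAt_const x v).prodMk he))
    have hi : Function.Injective (fderiv ℝ P (x, v)).toLinearMap := by
      refine (injective_iff_map_eq_zero _).2 fun w hw => ?_
      obtain ⟨a, b⟩ := w
      have hw' : fderiv ℝ P (x, v) (a, b) = 0 := hw
      obtain rfl : a = 0 := (h1 (a, b)).symm.trans (congrArg Prod.fst hw')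
      rw [h2] at hw'
      obtain ⟨A, hA⟩ := (expands_expG hG x).exists_equiv hG v
      have hb : A b = 0 := by
        have := congrArg Prod.snd hw'
        rwa [hA.fderiv] at this
      rw [(map_eq_zero_iff A A.injective).1 hb]
      rfl
    let A := (LinearEquiv.ofBijective (fderiv ℝ P (x, v)).toLinearMap
      ⟨hi, LinearMap.injective_iff_surjective.1 hi⟩).toContinuousLinearEquiv
    have hA : HasFDerivAt P (A : EE n × EE n →L[ℝ] EE n × EE n) (x, v) := by
      convert! hd using 1
    exact ⟨hP.contDiffAt.toOpenPartialHomeomorph P hA (by norm_num),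
      hP.contDiffAt.mem_toOpenPartialHomeomorph_source hA (by norm_num), fun _ _ => rfl⟩
  have hbij : Function.Bijective P := by
    refine ⟨fun a b h => ?_, fun q => ⟨(q.1, logG hG q.1 q.2), by simp [P, expG_logG]⟩⟩
    obtain ⟨h1, h2⟩ := Prod.ext_iff.1 h
    simp only [P] at h1 h2
    rw [← h1] at h2
    exact Prod.ext h1 ((bijective_expG hG a.1).injective h2)
  let e := (Equiv.ofBijective P hbij).toHomeomorphOfContinuousOpen hP.continuous hloc.isOpenMap
  have he : (fun q => logG hG q.1 q.2) = fun q => (e.symm q).2 := funext fun q => by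
    have h : e.symm q = (q.1, logG hG q.1 q.2) := e.injective (by
      rw [e.apply_symm_apply]
      show q = P (q.1, logG hG q.1 q.2)
      simp [P, expG_logG])
    rw [h]
  rw [he]
  exact continuous_snd.comp e.symm.continuous

theorem gdist_expG (hG : IsCH G) (x v : EE n) :
    gdist hG x (expG hG x v) = gnorm G x v := by rw [gdist, logG_expG]

/-- polar change of variables -/
theorem lintegral_rVol_expG (hG : IsCH G) (x : EE n) (f : EE n → ENNReal) :
    ∫⁻ y, f y ∂rVol G
      = ∫⁻ v, f (expG hG x v) * ENNReal.ofReal (jac hG x v * dens G x) := by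
  have hm : Measurable fun y => ENNReal.ofReal (dens G y) :=
    ENNReal.measurable_ofReal.comp (continuous_dens hG).measurable
  rw [rVol, lintegral_withDensity_eq_lintegral_mul_non_measurable _ hm
    (ae_of_all _ fun _ => ENNReal.ofReal_lt_top)]
  have h := lintegral_image_eq_lintegral_abs_det_fderiv_mul (volume : Measure (EE n))
    MeasurableSet.univ (fun v _ => (((contDiff_expG_at hG x).differentiable
      (by norm_num)) v).hasFDerivAt.hasFDerivWithinAt)
    (bijective_expG hG x).injective.injOn (fun y => ENNReal.ofReal (dens G y) * f y)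
  rw [image_univ, (bijective_expG hG x).surjective.range_eq] at h
  simp only [setLIntegral_univ] at h
  simp only [Pi.mul_apply]
  rw [h]
  refine lintegral_congr fun v => ?_
  rw [jac, div_mul_cancel₀ _ (dens_pos hG x).ne', ← mul_assoc, ← ENNReal.ofReal_mul (abs_nonneg _),
    mul_comm]

theorem integral_rVol_expG (hG : IsCH G) (x : EE n) (f : EE n → ℝ) :
    ∫ y, f y ∂rVol G = ∫ v, f (expG hG x v) * (jac hG x v * dens G x) := by
  rw [integral_rVol hG f]
  have h := integral_image_eq_integral_abs_det_fderiv_smul (volume : Measure (EE n))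
    MeasurableSet.univ (fun v _ => (((contDiff_expG_at hG x).differentiable
      (by norm_num)) v).hasFDerivAt.hasFDerivWithinAt)
    (bijective_expG hG x).injective.injOn (fun y => f y * dens G y)
  rw [image_univ, (bijective_expG hG x).surjective.range_eq] at h
  simp only [setIntegral_univ, smul_eq_mul] at h
  rw [h]
  refine integral_congr_ae (ae_of_all _ fun v => ?_)
  simp only [jac, div_mul_cancel₀ _ (dens_pos hG x).ne']
  ring

end Vale.Agent.P219
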