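import Vale.Agent.P219.Geo.Flow

/-!
# P219 module Geo.Exp, first part: smoothness and rays of the exponential map
-/

open scoped ContDiff
open MeasureTheory Set Filter Topology

namespace Vale.Agent.P219

variable {n : ℕ} {G : EE n → Form n}

theorem contDiff_expG (hG : IsCH G) : ContDiff ℝ 2 fun q : EE n × EE n => expG hG q.1 q.2 :=
  contDiff_fst.comp (contDiff_flowG hG 1)

theorem contDiff_expG_at (hG : IsCH G) (x : EE n) : ContDiff ℝ 2 (expG hG x) :=
  (contDiff_expG hG).comp (contDiff_const.prodMk contDiff_id)

theorem continuous_expG (hG : IsCH G) :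
    Continuous fun q : EE n × EE n => expG hG q.1 q.2 := (contDiff_expG hG).continuous

theorem geoPt_eq_expG (hG : IsCH G) (x v : EE n) (s : ℝ) :
    geoPt hG (x, v) s = expG hG x (s • v) := by
  simp [geoPt, expG, flowG_smul hG s 1 x v]

theorem expG_zero (hG : IsCH G) (x : EE n) : expG hG x 0 = x := by
  have h := geoPt_eq_expG hG x 0 0
  rwa [smul_zero, geoPt, flowG_zero, eq_comm] at h

end Vale.Agent.P219
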