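import Vale.Agent.P255.NPC.FlowC1

/-!
# P219: the global flow of a complete `C¹` vector field

Uniqueness, the group law, joint `C¹` dependence on time and initial point (time is turned into a
parameter), the variational equation, and `C²` dependence for a `C²` field (apply the `C¹` result to
the field together with its variational equation).
-/

open Set Filter Topology
open scoped ContDiff NNReal

namespace Vale.Agent.P219.ODE

variable {F : Type} [NormedAddCommGroup F] [NormedSpace ℝ F]

/-- `φ s q` is a trajectory of `f` through `q`, for every `q`, defined for all times. -/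
structure IsFlow (f : F → F) (φ : ℝ → F → F) : Prop where
  zero : ∀ q, φ 0 q = q
  deriv : ∀ q t, HasDerivAt (fun r => φ r q) (f (φ t q)) t

/-- Trajectories of a `C¹` field defined on an open interval around `0` are unique. -/
theorem unique_Ioo {f : F → F} (hf : ContDiff ℝ 1 f) {α β : ℝ → F} {a b : ℝ}
    (ha : ∀ t ∈ Icc a b, HasDerivAt α (f (α t)) t) (hb : ∀ t ∈ Icc a b, HasDerivAt β (f (β t)) t)
    {t₀ : ℝ} (ht₀ : t₀ ∈ Ioo a b) (h : α t₀ = β t₀) : EqOn α β (Ioo a b) := by
  set C : Set F := α '' Icc a b ∪ β '' Icc a b with hC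
  have hCc : IsCompact C :=
    (isCompact_Icc.image_of_continuousOn fun t ht => (ha t ht).continuousAt.continuousWithinAt).union
      (isCompact_Icc.image_of_continuousOn fun t ht => (hb t ht).continuousAt.continuousWithinAt)
  obtain ⟨K, hK⟩ := hf.locallyLipschitz.locallyLipschitzOn.exists_lipschitzOnWith_of_compact hCc
  exact ODE_solution_unique_of_mem_Ioo (v := fun _ => f) (s := fun _ => C) (fun _ _ => hK) ht₀
    (fun t ht => ⟨ha t (Ioo_subset_Icc_self ht), Or.inl (mem_image_of_mem α (Ioo_subset_Icc_self ht))⟩)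
    (fun t ht => ⟨hb t (Ioo_subset_Icc_self ht), Or.inr (mem_image_of_mem β (Ioo_subset_Icc_self ht))⟩)
    h

/-- Complete trajectories of a `C¹` field are unique. -/
theorem unique {f : F → F} (hf : ContDiff ℝ 1 f) {α β : ℝ → F}
    (ha : ∀ t, HasDerivAt α (f (α t)) t) (hb : ∀ t, HasDerivAt β (f (β t)) t) (h : α 0 = β 0)
    (t : ℝ) : α t = β t := by
  refine unique_Ioo hf (a := -(|t| + 1)) (b := |t| + 1) (fun s _ => ha s) (fun s _ => hb s)
    (t₀ := 0) ⟨by linarith [abs_nonneg t], by positivity⟩ h ⟨?_, ?_⟩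
  · linarith [neg_abs_le t]
  · linarith [le_abs_self t]

namespace IsFlow

variable {f : F → F} {φ : ℝ → F → F}

theorem eq_of_traj (hφ : IsFlow f φ) (hf : ContDiff ℝ 1 f) {α : ℝ → F}
    (hα : ∀ t, HasDerivAt α (f (α t)) t) (s : ℝ) : φ s (α 0) = α s :=
  unique hf (hφ.deriv (α 0)) hα (hφ.zero _) s

theorem add (hφ : IsFlow f φ) (hf : ContDiff ℝ 1 f) (a b : ℝ) (q : F) :
    φ (a + b) q = φ a (φ b q) := by
  have h := hφ.eq_of_traj hf (α := fun t => φ (t + b) q)
    (fun t => (hφ.deriv q (t + b)).comp_add_const t b) a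
  simpa using h.symm

/-- Time turned into a parameter. -/
theorem timeParam (hφ : IsFlow f φ) :
    IsFlow (fun p : F × ℝ => (p.2 • f p.1, (0 : ℝ))) (fun t p => (φ (p.2 * t) p.1, p.2)) where
  zero p := by simp [hφ.zero]
  deriv p t := by
    have h := (hφ.deriv p.1 (p.2 * t)).scomp t ((hasDerivAt_id t).const_mul p.2)
    simpa [Function.comp_def] using h.prodMk (hasDerivAt_const t p.2)

variable [FiniteDimensional ℝ F]

/-- The flow is differentiable in the initial point and its derivative solves the variational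
equation. -/
theorem variational (hφ : IsFlow f φ) (hf : ContDiff ℝ 1 f) (s : ℝ) (q : F) :
    ContDiffAt ℝ 1 (φ s) q ∧
      HasDerivAt (fun r => fderiv ℝ (φ r) q)
        ((fderiv ℝ f (φ s q)).comp (fderiv ℝ (φ s) q)) s := by
  set a := min s 0 - 1
  set b := max s 0 + 1
  have has : a < s := by have := min_le_left s 0; simp only [a]; linarith
  have hbs : s < b := by have := le_max_left s 0; simp only [b]; linarith
  have ha0 : a < 0 := by have := min_le_right s 0; simp only [a]; linarith
  have hb0 : 0 < b := by have := le_max_right s 0; simp only [b]; linarith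
  -- a slightly larger interval, so that trajectories can be compared up to its endpoints
  obtain ⟨V, Φ, hV, hqV, hΦ, hΦc, hL⟩ := Vale.Agent.P255.exists_flow_variational isOpen_univ
    (contDiffOn_univ.2 hf) (γ := fun t => φ t q) (a := a - 1) (b := b + 1)
    ⟨by linarith, by linarith⟩ (fun t _ => mem_univ _)
    (fun t _ => (hφ.deriv q t).hasDerivWithinAt)
  simp only [hφ.zero] at hqV
  have heq : ∀ t ∈ Ioo a b, ∀ x ∈ V, Φ x t = φ t x := by
    intro t ht x hx
    refine unique_Ioo hf (a := a) (b := b) (fun r hr => ?_) (fun r _ => hφ.deriv x r)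
      (t₀ := 0) ⟨ha0, hb0⟩ (by rw [(hΦ x hx).1, hφ.zero]) ht
    exact (((hΦ x hx).2 r ⟨by linarith [hr.1], by linarith [hr.2]⟩).2).hasDerivAt
      (Icc_mem_nhds (by linarith [hr.1]) (by linarith [hr.2]))
  have hnear : ∀ t ∈ Ioo a b, φ t =ᶠ[𝓝 q] fun x => Φ x t := fun t ht =>
    Filter.eventually_of_mem (hV.mem_nhds hqV) fun x hx => (heq t ht x hx).symm
  have hsI : s ∈ Icc (a - 1) (b + 1) := ⟨by linarith, by linarith⟩
  refine ⟨((hΦc s hsI).contDiffAt (hV.mem_nhds hqV)).congr_of_eventuallyEq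
    (hnear s ⟨has, hbs⟩), ?_⟩
  obtain ⟨L, -, hL'⟩ := hL q hqV
  have hLeq : ∀ r ∈ Ioo a b, fderiv ℝ (φ r) q = L r := fun r hr => by
    rw [(hnear r hr).fderiv_eq]
    exact (hL' r ⟨by linarith [hr.1], by linarith [hr.2]⟩).1.fderiv
  have h := (hL' s hsI).2.hasDerivAt (Icc_mem_nhds (by linarith) (by linarith))
  rw [← hLeq s ⟨has, hbs⟩, heq s ⟨has, hbs⟩ q hqV] at h
  exact h.congr_of_eventuallyEq (Filter.eventually_of_mem (Ioo_mem_nhds has hbs) hLeq)

theorem contDiff_one (hφ : IsFlow f φ) (hf : ContDiff ℝ 1 f) (s : ℝ) : ContDiff ℝ 1 (φ s) :=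
  contDiff_iff_contDiffAt.2 fun q => (hφ.variational hf s q).1

theorem hasDerivAt_fderiv (hφ : IsFlow f φ) (hf : ContDiff ℝ 1 f) (q : F) (s : ℝ) :
    HasDerivAt (fun r => fderiv ℝ (φ r) q) ((fderiv ℝ f (φ s q)).comp (fderiv ℝ (φ s) q)) s :=
  (hφ.variational hf s q).2

omit [FiniteDimensional ℝ F] in
theorem fderiv_zero (hφ : IsFlow f φ) (q : F) :
    fderiv ℝ (φ 0) q = ContinuousLinearMap.id ℝ F := by
  rw [show φ 0 = fun x => x from funext hφ.zero]
  exact fderiv_fun_id

/-- Joint `C¹` dependence on time and initial point. -/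
theorem contDiff_joint (hφ : IsFlow f φ) (hf : ContDiff ℝ 1 f) :
    ContDiff ℝ 1 fun p : ℝ × F => φ p.1 p.2 := by
  have hg : ContDiff ℝ 1 fun p : F × ℝ => (p.2 • f p.1, (0 : ℝ)) :=
    (contDiff_snd.smul (hf.comp contDiff_fst)).prodMk contDiff_const
  have h := contDiff_fst.comp ((hφ.timeParam.contDiff_one hg 1).comp
    (contDiff_snd.prodMk contDiff_fst))
  simpa [Function.comp_def] using h

theorem continuous_joint (hφ : IsFlow f φ) (hf : ContDiff ℝ 1 f) :
    Continuous fun p : ℝ × F => φ p.1 p.2 := (hφ.contDiff_joint hf).continuous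

theorem continuous_fderiv (hφ : IsFlow f φ) (hf : ContDiff ℝ 1 f) :
    Continuous fun p : ℝ × F => fderiv ℝ (φ p.1) p.2 := by
  have hj := hφ.contDiff_joint hf
  have e : (fun p : ℝ × F => fderiv ℝ (φ p.1) p.2) = fun p : ℝ × F =>
      (fderiv ℝ (fun q : ℝ × F => φ q.1 q.2) p).comp (ContinuousLinearMap.inr ℝ ℝ F) := by
    funext p
    exact ((hj.differentiable one_ne_zero p).hasFDerivAt.comp p.2
      (hasFDerivAt_prodMk_right (𝕜 := ℝ) p.1 p.2)).fderiv
  rw [e]
  exact (hj.continuous_fderiv one_ne_zero).clm_comp continuous_const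

/-- The field together with its variational equation. -/
theorem withVariation (hφ : IsFlow f φ) (hf : ContDiff ℝ 1 f) :
    IsFlow (fun p : F × (F →L[ℝ] F) => (f p.1, (fderiv ℝ f p.1).comp p.2))
      (fun t p => (φ t p.1, (fderiv ℝ (φ t) p.1).comp p.2)) where
  zero p := by simp [hφ.zero, hφ.fderiv_zero]
  deriv p t := by
    have h := ((ContinuousLinearMap.compL ℝ F F F).flip p.2).hasFDerivAt.comp_hasDerivAt t
      (hφ.hasDerivAt_fderiv hf p.1 t)
    simpa [Function.comp_def, ContinuousLinearMap.comp_assoc] using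
      (hφ.deriv p.1 t).prodMk h

/-- The flow of a `C²` field is `C²` in the initial point. -/
theorem contDiff_two (hφ : IsFlow f φ) (hf : ContDiff ℝ 2 f) (s : ℝ) : ContDiff ℝ 2 (φ s) := by
  have hf1 : ContDiff ℝ 1 f := hf.of_le one_le_two
  have hg : ContDiff ℝ 1 fun p : F × (F →L[ℝ] F) => (f p.1, (fderiv ℝ f p.1).comp p.2) :=
    (hf1.comp contDiff_fst).prodMk
      (((hf.fderiv_right (m := 1) (by norm_num)).comp contDiff_fst).clm_comp contDiff_snd)
  have h := contDiff_snd.comp (((hφ.withVariation hf1).contDiff_one hg s).comp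
    (contDiff_id.prodMk (contDiff_const (c := ContinuousLinearMap.id ℝ F))))
  rw [show (2 : WithTop ℕ∞) = 1 + 1 by norm_num, contDiff_succ_iff_fderiv]
  exact ⟨(hφ.contDiff_one hf1 s).differentiable one_ne_zero, by simp,
    by simpa [Function.comp_def] using h⟩

end IsFlow

end Vale.Agent.P219.ODE
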