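import Vale.Agent.P219.Geo.Chr
import Vale.Agent.P219.Geo.FlowODE

/-!
# P219 module Geo.Flow: the geodesic flow

The geodesic flow is the global flow of the spray (`Geo.FlowODE`); the speed is constant by the
Koszul formula.
-/

open scoped ContDiff
open Set Filter Topology

set_option maxSynthPendingDepth 3

namespace Vale.Agent.P219

variable {n : ℕ} {G : EE n → Form n}

theorem christoffel_spec (hG : IsCH G) (y u v w : EE n) :
    G y (christoffel G y u v) w
      = (fderiv ℝ G y u v w + fderiv ℝ G y v u w - fderiv ℝ G y w u v) / 2 :=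
  christoffel_apply hG y u v w

theorem contDiff_spray (hG : IsCH G) : ContDiff ℝ ∞ (spray G) := spray_smooth hG

theorem contDiff_spray_two (hG : IsCH G) : ContDiff ℝ 2 (spray G) :=
  (contDiff_spray hG).of_le (WithTop.coe_le_coe.2 le_top)

theorem contDiff_spray_one (hG : IsCH G) : ContDiff ℝ 1 (spray G) :=
  (contDiff_spray_two hG).of_le one_le_two

theorem isFlow_flowG (hG : IsCH G) : ODE.IsFlow (spray G) (flowG hG) :=
  ⟨fun q => (hG.complete q).choose_spec.1, fun q => (hG.complete q).choose_spec.2⟩

theorem flowG_zero (hG : IsCH G) (q : EE n × EE n) : flowG hG 0 q = q :=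
  (isFlow_flowG hG).zero q

theorem hasDerivAt_flowG (hG : IsCH G) (q : EE n × EE n) (s : ℝ) :
    HasDerivAt (fun r => flowG hG r q) (spray G (flowG hG s q)) s :=
  (isFlow_flowG hG).deriv q s

theorem flowG_unique (hG : IsCH G) {α : ℝ → EE n × EE n}
    (hα : ∀ t, HasDerivAt α (spray G (α t)) t) (s : ℝ) : flowG hG s (α 0) = α s :=
  (isFlow_flowG hG).eq_of_traj (contDiff_spray_one hG) hα s

theorem flowG_add (hG : IsCH G) (a b : ℝ) (q : EE n × EE n) :
    flowG hG (a + b) q = flowG hG a (flowG hG b q) :=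
  (isFlow_flowG hG).add (contDiff_spray_one hG) a b q

theorem flowG_smul (hG : IsCH G) (c s : ℝ) (x v : EE n) :
    flowG hG s (x, c • v) = ((flowG hG (c * s) (x, v)).1, c • (flowG hG (c * s) (x, v)).2) := by
  have hom : ∀ y w : EE n,
      christoffel G y (c • w) (c • w) = c • c • christoffel G y w w := fun y w => by
    simp only [← chrBil_apply, map_smul, smul_apply]
  have h := flowG_unique hG
    (α := fun r => ((flowG hG (c * r) (x, v)).1, c • (flowG hG (c * r) (x, v)).2)) (fun r => ?_) s
  · simpa [flowG_zero] using h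
  have h := (hasDerivAt_flowG hG (x, v) (c * r)).scomp r ((hasDerivAt_id r).const_mul c)
  rw [mul_one] at h
  have h1 : HasDerivAt (fun r => (flowG hG (c * r) (x, v)).1)
      (c • spray G (flowG hG (c * r) (x, v))).1 r := h.fst
  have h2 : HasDerivAt (fun r => c • (flowG hG (c * r) (x, v)).2)
      (c • (c • spray G (flowG hG (c * r) (x, v))).2) r :=
    HasDerivAt.const_smul c (h.snd : HasDerivAt (fun r => (flowG hG (c * r) (x, v)).2)
      (c • spray G (flowG hG (c * r) (x, v))).2 r)
  refine (h1.prodMk h2).congr_deriv ?_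
  simp only [spray, Prod.smul_fst, Prod.smul_snd, hom, smul_neg]

theorem flowG_speed (hG : IsCH G) (q : EE n × EE n) (s : ℝ) :
    gnorm G (flowG hG s q).1 (flowG hG s q).2 = gnorm G q.1 q.2 := by
  have key : ∀ t, HasDerivAt (fun r => G (flowG hG r q).1 (flowG hG r q).2 (flowG hG r q).2) 0 t := by
    intro t
    have h := hasDerivAt_flowG hG q t
    have h1 : HasDerivAt (fun r => (flowG hG r q).1) (flowG hG t q).2 t := h.fst
    have h2 : HasDerivAt (fun r => (flowG hG r q).2)
        (-christoffel G (flowG hG t q).1 (flowG hG t q).2 (flowG hG t q).2) t := h.snd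
    have hGd := (hG.smooth.differentiable (by simp)
      (flowG hG t q).1).hasFDerivAt.comp_hasDerivAt t h1
    refine ((hGd.clm_apply h2).clm_apply h2).congr_deriv ?_
    simp only [Function.comp_apply, add_apply, map_neg, neg_apply]
    rw [hG.symm (flowG hG t q).1 (flowG hG t q).2 (christoffel G _ _ _),
      christoffel_spec hG]
    ring
  have h := is_const_of_deriv_eq_zero (fun t => (key t).differentiableAt) (fun t => (key t).deriv) s 0
  rw [flowG_zero] at h
  rw [gnorm, gnorm, h]

theorem continuous_flowG (hG : IsCH G) :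
    Continuous fun p : ℝ × (EE n × EE n) => flowG hG p.1 p.2 :=
  (isFlow_flowG hG).continuous_joint (contDiff_spray_one hG)

theorem contDiff_one_flowG_joint (hG : IsCH G) :
    ContDiff ℝ 1 fun p : ℝ × (EE n × EE n) => flowG hG p.1 p.2 :=
  (isFlow_flowG hG).contDiff_joint (contDiff_spray_one hG)

theorem contDiff_flowG (hG : IsCH G) (s : ℝ) : ContDiff ℝ 2 (flowG hG s) :=
  (isFlow_flowG hG).contDiff_two (contDiff_spray_two hG) s

theorem continuous_fderiv_flowG (hG : IsCH G) :
    Continuous fun p : ℝ × (EE n × EE n) => fderiv ℝ (flowG hG p.1) p.2 :=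
  (isFlow_flowG hG).continuous_fderiv (contDiff_spray_one hG)

theorem fderiv_flowG_zero (hG : IsCH G) (q : EE n × EE n) :
    fderiv ℝ (flowG hG 0) q = ContinuousLinearMap.id ℝ (EE n × EE n) :=
  (isFlow_flowG hG).fderiv_zero q

theorem hasDerivAt_fderiv_flowG (hG : IsCH G) (q : EE n × EE n) (s : ℝ) :
    HasDerivAt (fun r => fderiv ℝ (flowG hG r) q)
      ((fderiv ℝ (spray G) (flowG hG s q)).comp (fderiv ℝ (flowG hG s) q)) s :=
  (isFlow_flowG hG).hasDerivAt_fderiv (contDiff_spray_one hG) q s

end Vale.Agent.P219
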