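import Vale.Agent.P219.Geo.ExpBase
import Vale.Agent.P219.Geo.Chr

/-!
# P219 module Geo.Jacobi: Gauss lemma, Rauch comparison and the Jacobian

Along `z s = geoPt (x, v) s` the variation field `J` in the direction `w` is
`s • D exp_x (s • v) w`. It satisfies `G(DJ, z') = const` (Gauss) and `|J|` is convex (Rauch).
-/

open scoped ContDiff
open MeasureTheory Set Filter Topology

namespace Vale.Agent.P219

set_option maxSynthPendingDepth 3

variable {n : ℕ} {G : EE n → Form n}

/-- the velocity of the geodesic from `x` with initial velocity `v` -/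
noncomputable def geoVel (hG : IsCH G) (x v : EE n) (s : ℝ) : EE n := (flowG hG s (x, v)).2

/-- the variation of the state in the direction `w` of the initial velocity -/
noncomputable def varState (hG : IsCH G) (x v w : EE n) (s : ℝ) : EE n × EE n :=
  fderiv ℝ (flowG hG s) (x, v) (0, w)

/-- the covariant derivative of the variation field -/
noncomputable def varCov (hG : IsCH G) (x v w : EE n) (s : ℝ) : EE n :=
  (varState hG x v w s).2
    + chrBil G (geoPt hG (x, v) s) (geoVel hG x v s) (varState hG x v w s).1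

/-- metric compatibility along a curve -/
theorem hasDerivAt_metric (hG : IsCH G) {z X Y : ℝ → EE n} {z' X' Y' : EE n} {s : ℝ}
    (hz : HasDerivAt z z' s) (hX : HasDerivAt X X' s) (hY : HasDerivAt Y Y' s) :
    HasDerivAt (fun r => G (z r) (X r) (Y r))
      (G (z s) (X' + chrBil G (z s) z' (X s)) (Y s)
        + G (z s) (X s) (Y' + chrBil G (z s) z' (Y s))) s := by
  have h0 : HasFDerivAt G (fderiv ℝ G (z s)) (z s) := (hG.differentiable (z s)).hasFDerivAt
  have h1 : HasDerivAt (fun r => G (z r)) (fderiv ℝ G (z s) z') s :=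
    h0.comp_hasDerivAt (f := z) s hz
  refine ((h1.clm_apply hX).clm_apply hY).congr_deriv ?_
  simp only [add_apply, map_add, fderiv_metric hG, chrBil_apply]
  ring

theorem hasDerivAt_geoPt (hG : IsCH G) (x v : EE n) (s : ℝ) :
    HasDerivAt (geoPt hG (x, v)) (geoVel hG x v s) s :=
  (ContinuousLinearMap.fst ℝ (EE n) (EE n)).hasFDerivAt.comp_hasDerivAt s
    (hasDerivAt_flowG hG (x, v) s)

theorem hasDerivAt_geoVel (hG : IsCH G) (x v : EE n) (s : ℝ) :
    HasDerivAt (geoVel hG x v)
      (-chrBil G (geoPt hG (x, v) s) (geoVel hG x v s) (geoVel hG x v s)) s := by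
  have h := (ContinuousLinearMap.snd ℝ (EE n) (EE n)).hasFDerivAt.comp_hasDerivAt s
    (hasDerivAt_flowG hG (x, v) s)
  refine h.congr_deriv ?_
  simp [spray, chrBil_apply, geoPt, geoVel]

theorem hasDerivAt_varState (hG : IsCH G) (x v w : EE n) (s : ℝ) :
    HasDerivAt (varState hG x v w)
      (fderiv ℝ (spray G) (flowG hG s (x, v)) (varState hG x v w s)) s := by
  refine ((hasDerivAt_fderiv_flowG hG (x, v) s).clm_apply
    (hasDerivAt_const s ((0 : EE n), w))).congr_deriv ?_
  simp [varState]

theorem hasDerivAt_varField (hG : IsCH G) (x v w : EE n) (s : ℝ) :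
    HasDerivAt (fun r => (varState hG x v w r).1) (varState hG x v w s).2 s := by
  refine ((ContinuousLinearMap.fst ℝ (EE n) (EE n)).hasFDerivAt.comp_hasDerivAt s
    (hasDerivAt_varState hG x v w s)).congr_deriv ?_
  simp [fderiv_spray hG]

theorem fderiv_chrBil_comm (hG : IsCH G) (y a b c : EE n) :
    fderiv ℝ (chrBil G) y a b c = fderiv ℝ (chrBil G) y a c b := by
  have h := ((contDiff_chrBil hG).differentiable (by simp) y).hasFDerivAt
  have h1 := (h.clm_apply (hasFDerivAt_const b y)).clm_apply (hasFDerivAt_const c y)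
  have h2 := (h.clm_apply (hasFDerivAt_const c y)).clm_apply (hasFDerivAt_const b y)
  have e : (fun z => chrBil G z b c) = fun z => chrBil G z c b := funext fun z => by
    rw [chrBil_apply, chrBil_apply, christoffel_comm hG]
  rw [e] at h1
  simpa using congrArg (fun T : EE n →L[ℝ] EE n => T a) (h1.unique h2)

/-- the Jacobi equation -/
theorem hasDerivAt_varCov (hG : IsCH G) (x v w : EE n) (s : ℝ) :
    HasDerivAt (varCov hG x v w)
      (-curv G (geoPt hG (x, v) s) (varState hG x v w s).1 (geoVel hG x v s) (geoVel hG x v s)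
        - chrBil G (geoPt hG (x, v) s) (geoVel hG x v s) (varCov hG x v w s)) s := by
  have h2 : HasDerivAt (fun r => (varState hG x v w r).2) _ s :=
    (ContinuousLinearMap.snd ℝ (EE n) (EE n)).hasFDerivAt.comp_hasDerivAt s
      (hasDerivAt_varState hG x v w s)
  have hB := ((contDiff_chrBil hG).differentiable (by simp)
    (geoPt hG (x, v) s)).hasFDerivAt.comp_hasDerivAt s (hasDerivAt_geoPt hG x v s)
  have h := h2.fun_add ((hB.clm_apply (hasDerivAt_geoVel hG x v s)).clm_apply
    (hasDerivAt_varField hG x v w s))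
  refine h.congr_deriv ?_
  simp only [Function.comp_apply, fderiv_spray hG, curv_eq_chrBil hG, varCov, geoPt, geoVel,
    ContinuousLinearMap.coe_snd', map_add, map_neg, add_apply, neg_apply]
  have hc : ∀ a b, chrBil G (flowG hG s (x, v)).1 a b = chrBil G (flowG hG s (x, v)).1 b a :=
    fun a b => by rw [chrBil_apply, chrBil_apply, christoffel_comm hG]
  rw [fderiv_chrBil_comm hG _ _ (flowG hG s (x, v)).2 (varState hG x v w s).1,
    hc (varState hG x v w s).2 (flowG hG s (x, v)).2,
    hc (varState hG x v w s).1 (flowG hG s (x, v)).2,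
    hc (varState hG x v w s).1 (chrBil G (flowG hG s (x, v)).1 (flowG hG s (x, v)).2
      (flowG hG s (x, v)).2)]
  abel

theorem flowG_one_smul_fst (hG : IsCH G) (x v : EE n) (s : ℝ) :
    (flowG hG s (x, v)).1 = expG hG x (s • v) := geoPt_eq_expG hG x v s

theorem fderiv_expG_eq (hG : IsCH G) (x v : EE n) :
    fderiv ℝ (expG hG x) v = (ContinuousLinearMap.fst ℝ (EE n) (EE n)).comp
      ((fderiv ℝ (flowG hG 1) (x, v)).comp (ContinuousLinearMap.inr ℝ (EE n) (EE n))) := by
  have h := ((contDiff_flowG hG 1).differentiable (by norm_num) (x, v)).hasFDerivAt.comp v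
    ((hasFDerivAt_const x v).prodMk (hasFDerivAt_id v))
  exact ((ContinuousLinearMap.fst ℝ (EE n) (EE n)).hasFDerivAt.comp v h).fderiv

/-- the variation field is `s • D exp` -/
theorem varState_fst (hG : IsCH G) (x v w : EE n) (s : ℝ) :
    (varState hG x v w s).1 = s • fderiv ℝ (expG hG x) (s • v) w := by
  have h1 : HasFDerivAt (fun u => (flowG hG s (x, u)).1)
      ((ContinuousLinearMap.fst ℝ (EE n) (EE n)).comp
        ((fderiv ℝ (flowG hG s) (x, v)).comp
          ((0 : EE n →L[ℝ] EE n).prod (ContinuousLinearMap.id ℝ (EE n))))) v :=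
    (ContinuousLinearMap.fst ℝ (EE n) (EE n)).hasFDerivAt.comp v
      (((contDiff_flowG hG s).differentiable (by norm_num) (x, v)).hasFDerivAt.comp v
        ((hasFDerivAt_const x v).prodMk (hasFDerivAt_id v)))
  have h2 : HasFDerivAt (fun u => (flowG hG s (x, u)).1)
      ((fderiv ℝ (expG hG x) (s • v)).comp (s • ContinuousLinearMap.id ℝ (EE n))) v :=
    ((((contDiff_expG_at hG x).differentiable (by norm_num) (s • v)).hasFDerivAt.comp v
      ((hasFDerivAt_id v).const_smul s))).congr_of_eventuallyEq
      (Eventually.of_forall fun u => flowG_one_smul_fst hG x u s)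
  have h := congrArg (fun T : EE n →L[ℝ] EE n => T w) (h1.unique h2)
  simpa [varState] using h

theorem varState_zero (hG : IsCH G) (x v w : EE n) : varState hG x v w 0 = (0, w) := by
  have : flowG hG 0 = id := funext fun q => flowG_zero hG q
  simp [varState, this]

theorem fderiv_expG_self (hG : IsCH G) (x v : EE n) :
    fderiv ℝ (expG hG x) v v = (flowG hG 1 (x, v)).2 := by
  have hl : HasDerivAt (fun r : ℝ => r • v) v 1 := by
    simpa using (hasDerivAt_id (1 : ℝ)).smul_const v
  have h := ((contDiff_expG_at hG x).differentiable (by norm_num) v).hasFDerivAt.comp_hasDerivAt_of_eq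
    1 hl (one_smul ℝ v).symm
  exact (h.congr_of_eventuallyEq
    (Eventually.of_forall fun r => geoPt_eq_expG hG x v r)).unique (hasDerivAt_geoPt hG x v 1)

theorem fderiv_expG_zero (hG : IsCH G) (x w : EE n) : fderiv ℝ (expG hG x) 0 w = w := by
  have hl : HasDerivAt (fun r : ℝ => r • w) w 0 := by
    simpa using (hasDerivAt_id (0 : ℝ)).smul_const w
  have h := ((contDiff_expG_at hG x).differentiable (by norm_num) 0).hasFDerivAt.comp_hasDerivAt_of_eq
    0 hl (zero_smul ℝ w).symm
  have := (h.congr_of_eventuallyEq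
    (Eventually.of_forall fun r => geoPt_eq_expG hG x w r)).unique (hasDerivAt_geoPt hG x w 0)
  rwa [geoVel, flowG_zero] at this

theorem pullG_zero (hG : IsCH G) (x w w' : EE n) : pullG hG x 0 w w' = G x w w' := by
  rw [pullG, expG_zero, fderiv_expG_zero, fderiv_expG_zero]

/-- the Gauss relation along a geodesic -/
theorem metric_varField_geoVel (hG : IsCH G) (x v w : EE n) (s : ℝ) :
    G (geoPt hG (x, v) s) (varState hG x v w s).1 (geoVel hG x v s) = s * G x w v := by
  have hA : ∀ r, HasDerivAt (fun r => G (geoPt hG (x, v) r) (varState hG x v w r).1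
      (geoVel hG x v r)) (G (geoPt hG (x, v) r) (varCov hG x v w r) (geoVel hG x v r)) r := fun r =>
    (hasDerivAt_metric hG (hasDerivAt_geoPt hG x v r) (hasDerivAt_varField hG x v w r)
      (hasDerivAt_geoVel hG x v r)).congr_deriv (by simp [varCov])
  have hB : ∀ r, HasDerivAt (fun r => G (geoPt hG (x, v) r) (varCov hG x v w r)
      (geoVel hG x v r)) 0 r := fun r => by
    refine (hasDerivAt_metric hG (hasDerivAt_geoPt hG x v r) (hasDerivAt_varCov hG x v w r)
      (hasDerivAt_geoVel hG x v r)).congr_deriv ?_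
    simp [curv_radial hG]
  have hB0 : ∀ r, G (geoPt hG (x, v) r) (varCov hG x v w r) (geoVel hG x v r) = G x w v := by
    intro r
    rw [is_const_of_deriv_eq_zero (fun r => (hB r).differentiableAt) (fun r => (hB r).deriv) r 0]
    simp [varCov, varState_zero, geoPt, geoVel, flowG_zero]
  have hC : ∀ r, HasDerivAt (fun r => G (geoPt hG (x, v) r) (varState hG x v w r).1
      (geoVel hG x v r) - r * G x w v) 0 r := fun r =>
    ((hA r).fun_sub ((hasDerivAt_id r).mul_const _)).congr_deriv (by simp [hB0])
  have := is_const_of_deriv_eq_zero (fun r => (hC r).differentiableAt) (fun r => (hC r).deriv) s 0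
  simp [varState_zero] at this
  linarith

/-- Gauss lemma -/
theorem pullG_radial (hG : IsCH G) (x v w : EE n) : pullG hG x v v w = G x v w := by
  have h := metric_varField_geoVel hG x v w 1
  rw [varState_fst hG x v w 1, one_smul, one_smul, one_mul, geoPt_eq_expG, one_smul] at h
  rw [pullG, fderiv_expG_self, hG.symm, hG.symm x v w]
  exact h

/-- Rauch along a geodesic: `|J|/s` is monotone -/
theorem sq_varField_le (hG : IsCH G) (x v w : EE n) {a b : ℝ} (ha : 0 < a) (hab : a ≤ b) :
    G (geoPt hG (x, v) a) (varState hG x v w a).1 (varState hG x v w a).1 * b ^ 2 ≤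
      G (geoPt hG (x, v) b) (varState hG x v w b).1 (varState hG x v w b).1 * a ^ 2 := by
  set N : ℝ → ℝ := fun r => G (geoPt hG (x, v) r) (varState hG x v w r).1 (varState hG x v w r).1
  set f : ℝ → ℝ := fun r => G (geoPt hG (x, v) r) (varState hG x v w r).1 (varCov hG x v w r)
  set f' : ℝ → ℝ := fun r => G (geoPt hG (x, v) r) (varCov hG x v w r) (varCov hG x v w r)
    - G (geoPt hG (x, v) r) (curv G (geoPt hG (x, v) r) (varState hG x v w r).1 (geoVel hG x v r)
        (geoVel hG x v r)) (varState hG x v w r).1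
  have hN : ∀ r, HasDerivAt N (2 * f r) r := fun r => by
    refine (hasDerivAt_metric hG (hasDerivAt_geoPt hG x v r) (hasDerivAt_varField hG x v w r)
      (hasDerivAt_varField hG x v w r)).congr_deriv ?_
    simp only [f, varCov]
    rw [hG.symm _ ((varState hG x v w r).2 + _)]
    ring
  have hf : ∀ r, HasDerivAt f (f' r) r := fun r => by
    refine (hasDerivAt_metric hG (hasDerivAt_geoPt hG x v r) (hasDerivAt_varField hG x v w r)
      (hasDerivAt_varCov hG x v w r)).congr_deriv ?_
    simp only [f', varCov, sub_add_cancel, map_neg, sub_eq_add_neg]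
    rw [hG.symm _ (curv G _ _ _ _)]
    simp
    ring
  have hnn : ∀ y u, 0 ≤ G y u u := fun y u => (sq_gnorm hG y u).symm ▸ sq_nonneg _
  have hsec : ∀ r, G (geoPt hG (x, v) r) (curv G (geoPt hG (x, v) r) (varState hG x v w r).1
      (geoVel hG x v r) (geoVel hG x v r)) (varState hG x v w r).1 ≤ 0 := fun r => hG.sec _ _ _
  have hcs : ∀ r, f r ^ 2 ≤ N r * f' r := fun r => (hG.cauchy _ _ _).trans
    (mul_le_mul_of_nonneg_left (by simp only [f']; linarith [hsec r]) (hnn _ _))
  have hf0 : ∀ r, 0 ≤ f' r := fun r => by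
    simp only [f']
    linarith [hnn (geoPt hG (x, v) r) (varCov hG x v w r), hsec r]
  have conv : ∀ ε : ℝ, 0 < ε → ConvexOn ℝ univ fun t => Real.sqrt (N t + ε) := by
    intro ε hε
    have hp : ∀ t, 0 < N t + ε := fun t => add_pos_of_nonneg_of_pos (hnn _ _) hε
    have h1 : ∀ t, HasDerivAt (fun t => Real.sqrt (N t + ε)) (f t / Real.sqrt (N t + ε)) t :=
      fun t => (((hN t).add_const ε).sqrt (hp t).ne').congr_deriv (by field_simp)
    have h2 : ∀ t, HasDerivAt (fun t => f t / Real.sqrt (N t + ε))
        ((f' t * (N t + ε) - f t ^ 2) / ((N t + ε) * Real.sqrt (N t + ε))) t := fun t => by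
      refine ((hf t).fun_div (h1 t) (Real.sqrt_pos.2 (hp t)).ne').congr_deriv ?_
      have hs := Real.sq_sqrt (hp t).le
      have hR := (Real.sqrt_pos.2 (hp t)).ne'
      generalize Real.sqrt (N t + ε) = R at hs hR ⊢
      generalize N t + ε = P at hs ⊢
      subst hs
      field_simp
    refine convexOn_of_hasDerivWithinAt2_nonneg convex_univ
      (fun t _ => (h1 t).continuousAt.continuousWithinAt)
      (fun t _ => (h1 t).hasDerivWithinAt) (fun t _ => (h2 t).hasDerivWithinAt) fun t _ => ?_
    refine div_nonneg ?_ (mul_nonneg (hp t).le (Real.sqrt_nonneg _))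
    nlinarith [hcs t, mul_nonneg (hf0 t) hε.le]
  have hb : 0 < b := ha.trans_le hab
  have hN0 : N 0 = 0 := by simp [N, varState_zero]
  set l : ℝ := a / b
  have hl0 : 0 ≤ l := by positivity
  have hl1 : l ≤ 1 := (div_le_one hb).2 hab
  have hla : l * b = a := div_mul_cancel₀ a hb.ne'
  have hlim : Tendsto (fun ε : ℝ => (1 - l) * Real.sqrt ε + l * Real.sqrt (N b + ε)) (𝓝[>] 0)
      (𝓝 (l * Real.sqrt (N b))) := by
    refine Tendsto.mono_left ?_ nhdsWithin_le_nhds
    have hc : Continuous fun ε : ℝ => (1 - l) * Real.sqrt ε + l * Real.sqrt (N b + ε) := by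
      fun_prop
    simpa using hc.tendsto 0
  have hk : Real.sqrt (N a) ≤ l * Real.sqrt (N b) := by
    refine ge_of_tendsto hlim (eventually_of_mem self_mem_nhdsWithin fun ε hε => ?_)
    have hk := (conv ε hε).2 (mem_univ (0 : ℝ)) (mem_univ b) (sub_nonneg.2 hl1) hl0 (by ring)
    simp only [smul_eq_mul, mul_zero, zero_add, hN0, hla] at hk
    exact (Real.sqrt_le_sqrt (le_add_of_nonneg_right (mem_Ioi.1 hε).le)).trans hk
  have h2 := pow_le_pow_left₀ (Real.sqrt_nonneg _) hk 2
  rw [mul_pow, Real.sq_sqrt (hnn _ _), Real.sq_sqrt (hnn _ _)] at h2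
  calc N a * b ^ 2 ≤ l ^ 2 * N b * b ^ 2 := mul_le_mul_of_nonneg_right h2 (sq_nonneg _)
    _ = _ := by rw [← hla]; ring

theorem continuous_pullG_ray (hG : IsCH G) (x v w : EE n) :
    Continuous fun t : ℝ => pullG hG x (t • v) w w := by
  have h1 : Continuous fun t : ℝ => t • v := continuous_id.smul continuous_const
  have h2 : Continuous fun t : ℝ => fderiv ℝ (expG hG x) (t • v) w :=
    (((contDiff_expG_at hG x).continuous_fderiv (by norm_num)).comp h1).clm_apply continuous_const
  exact ((hG.smooth.continuous.comp ((contDiff_expG_at hG x).continuous.comp h1)).clm_apply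
    h2).clm_apply h2

/-- Rauch: the pulled back metric increases along rays -/
theorem pullG_mono (hG : IsCH G) (x v w : EE n) {a b : ℝ} (ha : 0 ≤ a) (hab : a ≤ b) :
    pullG hG x (a • v) w w ≤ pullG hG x (b • v) w w := by
  have key : ∀ c, 0 < c → c ≤ b → pullG hG x (c • v) w w ≤ pullG hG x (b • v) w w := by
    intro c hc hcb
    have hb : 0 < b := hc.trans_le hcb
    have h := sq_varField_le hG x v w hc hcb
    simp only [varState_fst, geoPt_eq_expG, map_smul, smul_apply, smul_eq_mul] at h
    rw [pullG, pullG]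
    exact le_of_mul_le_mul_right (by linarith) (mul_pos (mul_pos hc hc) (mul_pos hb hb))
  rcases ha.eq_or_lt with rfl | ha'
  · rcases hab.eq_or_lt with rfl | hb
    · exact le_rfl
    · refine le_of_tendsto (((continuous_pullG_ray hG x v w).tendsto 0).mono_left
        nhdsWithin_le_nhds) (show ∀ᶠ c in 𝓝[>] (0 : ℝ), _ from ?_)
      filter_upwards [Ioo_mem_nhdsGT hb] with c hc using key c hc.1 hc.2.le
  · exact key a ha' hab

/-- the exponential map expands -/
theorem pullG_ge (hG : IsCH G) (x v w : EE n) : G x w w ≤ pullG hG x v w w := by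
  have h := pullG_mono hG x v w le_rfl zero_le_one
  rwa [zero_smul, one_smul, pullG_zero] at h

theorem one_le_jac (hG : IsCH G) (x v : EE n) : 1 ≤ jac hG x v := by
  obtain ⟨L, hL, hdL⟩ := exists_det_sq hG x
  obtain ⟨K, hK, hdK⟩ := exists_det_sq hG (expG hG x v)
  set D := fderiv ℝ (expG hG x) v
  set T : EE n →L[ℝ] EE n :=
    (K : EE n →L[ℝ] EE n).comp (D.comp (L.symm : EE n →L[ℝ] EE n)) with hT
  have hexp : ∀ u, ‖u‖ ≤ ‖T u‖ := fun u => by
    have h := pullG_ge hG x v (L.symm u)
    rw [pullG, hK, hL, real_inner_self_eq_norm_sq, real_inner_self_eq_norm_sq,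
      L.apply_symm_apply] at h
    exact (pow_le_pow_iff_left₀ (norm_nonneg _) (norm_nonneg _) two_ne_zero).1 h
  have hinj : Function.Injective T := (injective_iff_map_eq_zero T).2 fun u hu =>
    norm_eq_zero.1 (le_antisymm (by simpa [hu] using hexp u) (norm_nonneg u))
  have hne : T.det ≠ 0 := (LinearEquiv.isUnit_det'
    (LinearEquiv.ofBijective (T : EE n →ₗ[ℝ] EE n)
      ⟨hinj, LinearMap.surjective_of_injective hinj⟩)).ne_zero
  have hsub : (T : EE n →ₗ[ℝ] EE n) ⁻¹' Metric.closedBall 0 1 ⊆ Metric.closedBall 0 1 := fun u hu => by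
    rw [mem_preimage, mem_closedBall_zero_iff] at hu
    rw [mem_closedBall_zero_iff]
    exact (hexp u).trans hu
  have hv := measure_mono (μ := (volume : Measure (EE n))) hsub
  rw [Measure.addHaar_preimage_linearMap volume hne, abs_inv] at hv
  have h1 := ENNReal.toReal_mono measure_closedBall_lt_top.ne hv
  rw [ENNReal.toReal_mul, ENNReal.toReal_ofReal (by positivity)] at h1
  have hpos : 0 < (volume (Metric.closedBall (0 : EE n) 1)).toReal :=
    ENNReal.toReal_pos (Metric.measure_closedBall_pos volume 0 one_pos).ne'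
      measure_closedBall_lt_top.ne
  have hT1 : 1 ≤ |T.det| := by
    rw [inv_mul_le_iff₀ (abs_pos.2 hne)] at h1
    exact le_of_mul_le_mul_right (by linarith) hpos
  have hKT : (K : EE n →L[ℝ] EE n).comp D = T.comp (L : EE n →L[ℝ] EE n) := by
    ext u; simp [hT]
  have hdet := congrArg (fun S : EE n →L[ℝ] EE n => |S.det|) hKT
  simp only [ContinuousLinearMap.det, ContinuousLinearMap.toLinearMap_comp, LinearMap.det_comp,
    abs_mul] at hdet
  have hx := dens_pos hG x
  rw [jac, le_div_iff₀ hx, one_mul, hdL, hdK, mul_comm]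
  refine le_of_le_of_eq ?_ hdet.symm
  exact le_mul_of_one_le_left (abs_nonneg _) hT1

theorem contDiff_dens (hG : IsCH G) : ContDiff ℝ ∞ (dens G) := by
  have h : ContDiff ℝ ∞ fun x => Matrix.det (Matrix.of fun i j : Fin n =>
      G x (EuclideanSpace.single i (1 : ℝ)) (EuclideanSpace.single j (1 : ℝ))) := by
    simp only [Matrix.det_apply', Matrix.of_apply]
    exact ContDiff.sum fun σ _ => contDiff_const.mul (contDiff_prod fun i _ =>
      (hG.smooth.clm_apply contDiff_const).clm_apply contDiff_const)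
  exact h.sqrt fun x => (Real.sqrt_pos.1 (dens_pos hG x)).ne'

theorem contDiff_det : ContDiff ℝ ∞ fun T : EE n →L[ℝ] EE n => T.det := by
  have e : (fun T : EE n →L[ℝ] EE n => T.det) = fun T => Matrix.det (Matrix.of fun i j : Fin n =>
      T (EuclideanSpace.single j (1 : ℝ)) i) := funext fun T => by
    rw [ContinuousLinearMap.det,
      ← LinearMap.det_toMatrix (EuclideanSpace.basisFun (Fin n) ℝ).toBasis]
    congr 1
  rw [e]
  simp only [Matrix.det_apply', Matrix.of_apply]
  exact ContDiff.sum fun σ _ => contDiff_const.mul (contDiff_prod fun i _ =>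
    (contDiff_piLp_apply (p := 2) (i := σ i)).comp (contDiff_id.clm_apply contDiff_const))

theorem contDiff_jac (hG : IsCH G) :
    ContDiff ℝ 1 fun q : EE n × EE n => jac hG q.1 q.2 := by
  have hD : ContDiff ℝ 1 fun q : EE n × EE n => fderiv ℝ (expG hG q.1) q.2 := by
    simp only [fderiv_expG_eq hG]
    exact contDiff_const.clm_comp (((contDiff_flowG hG 1).fderiv_right (m := 1)
      (by norm_num)).clm_comp contDiff_const)
  have hne : ∀ q : EE n × EE n, (fderiv ℝ (expG hG q.1) q.2).det ≠ 0 := fun q h0 => by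
    have := one_le_jac hG q.1 q.2
    simp [jac, h0] at this
    linarith
  have hd : ContDiff ℝ 1 fun q : EE n × EE n => |(fderiv ℝ (expG hG q.1) q.2).det| :=
    contDiff_iff_contDiffAt.2 fun q => ((contDiff_det.of_le (by simp)).comp hD).contDiffAt.abs
      (hne q)
  exact ((hd.mul (((contDiff_dens hG).of_le (by simp)).comp
    ((contDiff_expG hG).of_le (by norm_num)))).div
    (((contDiff_dens hG).of_le (by simp)).comp contDiff_fst)) fun q => (dens_pos hG q.1).ne'

end Vale.Agent.P219
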