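import Vale.Agent.P219.Core

/-!
# P219 module Geo.Linear: pointwise linear algebra of the metric

Every positive definite form is `v w ↦ ⟪L v, L w⟫` for a linear isomorphism `L`; all lemmas
follow from this.
-/

open scoped ContDiff Matrix InnerProductSpace
open MeasureTheory Set

namespace Vale.Agent.P219

variable {n : ℕ} {G : EE n → Form n}

/-- A positive definite symmetric form is a pullback of the inner product. -/
theorem exists_root (A : Form n) (hs : ∀ a b, A a b = A b a) (hp : ∀ a, a ≠ 0 → 0 < A a a) :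
    ∃ L : EE n ≃L[ℝ] EE n, (∀ v w, A v w = inner ℝ (L v) (L w)) ∧
      Real.sqrt (Matrix.det (Matrix.of fun i j : Fin n =>
        A (EuclideanSpace.single i (1 : ℝ)) (EuclideanSpace.single j (1 : ℝ))))
        = |(L : EE n →L[ℝ] EE n).det| := by
  classical
  set e : Fin n → EE n := fun i => EuclideanSpace.single i (1 : ℝ) with he
  set M : Matrix (Fin n) (Fin n) ℝ := Matrix.of fun i j => A (e i) (e j) with hM
  have hexp : ∀ v : EE n, v = ∑ i, v i • e i := fun v => by
    conv_lhs => rw [← (EuclideanSpace.basisFun (Fin n) ℝ).sum_repr v]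
    simp [he]
  have hA : ∀ v w : EE n, A v w = WithLp.ofLp v ⬝ᵥ (M *ᵥ WithLp.ofLp w) := fun v w => by
    conv_lhs => rw [hexp v, hexp w]
    simp [dotProduct, Matrix.mulVec, hM, Finset.mul_sum, mul_comm]
    rw [Finset.sum_comm]
    refine Finset.sum_congr rfl fun i _ => Finset.sum_congr rfl fun j _ => ?_
    ring
  have hpd : M.PosDef := by
    refine Matrix.PosDef.of_dotProduct_mulVec_pos ?_ fun x hx => ?_
    · ext i j; simp [hM, hs (e j) (e i)]
    · have := hp (WithLp.toLp 2 x) (by simpa using hx)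
      rw [hA] at this
      simpa using this
  obtain ⟨B, hB⟩ : ∃ B : Matrix (Fin n) (Fin n) ℝ, M = Bᴴ * B := by
    open scoped MatrixOrder in
    exact CStarAlgebra.nonneg_iff_eq_star_mul_self.1 hpd.posSemidef.nonneg
  set L₀ : EE n →ₗ[ℝ] EE n := Matrix.toEuclideanLin B with hL₀
  have hin : ∀ v w : EE n, A v w = inner ℝ (L₀ v) (L₀ w) := fun v w => by
    rw [hA, hB, EuclideanSpace.inner_eq_star_dotProduct]
    simp [hL₀, Matrix.toLpLin_apply, ← Matrix.mulVec_mulVec, Matrix.dotProduct_mulVec,
      Matrix.vecMul_transpose, dotProduct_comm]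
  have hinj : Function.Injective L₀ := by
    refine (injective_iff_map_eq_zero _).2 fun v hv => ?_
    by_contra hne
    have := hp v hne
    simp [hin, hv] at this
  set L := (LinearEquiv.ofBijective L₀ ⟨hinj, LinearMap.surjective_of_injective hinj⟩
    ).toContinuousLinearEquiv
  refine ⟨L, fun v w => hin v w, ?_⟩
  have hd : (L : EE n →L[ℝ] EE n).det = B.det := by
    show LinearMap.det L₀ = B.det
    rw [hL₀, Matrix.toEuclideanLin_eq_toLin_orthonormal, LinearMap.det_toLin]
  show Real.sqrt M.det = _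
  rw [hd, hB, Matrix.det_mul, Matrix.det_conjTranspose, star_trivial, ← sq, Real.sqrt_sq_eq_abs]

theorem exists_det_sq (hG : IsCH G) (x : EE n) :
    ∃ L : EE n ≃L[ℝ] EE n, (∀ v w, G x v w = inner ℝ (L v) (L w)) ∧
      dens G x = |(L : EE n →L[ℝ] EE n).det| :=
  exists_root (G x) (hG.symm x) (hG.pos x)

/-- A positive definite form is invertible as a map to covectors. -/
theorem isInvertible_of_pos (A : Form n) (hp : ∀ a, a ≠ 0 → 0 < A a a) : A.IsInvertible := by
  have hinj : Function.Injective A := by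
    refine (injective_iff_map_eq_zero A).2 fun v hv => ?_
    by_contra hne
    have := hp v hne
    simp [hv] at this
  have hfin : Module.finrank ℝ (EE n) = Module.finrank ℝ (EE n →L[ℝ] ℝ) :=
    LinearEquiv.finrank_eq (InnerProductSpace.toDual ℝ (EE n)).toLinearEquiv
  exact ⟨(LinearMap.linearEquivOfInjective (A : EE n →ₗ[ℝ] EE n →L[ℝ] ℝ) hinj hfin
    ).toContinuousLinearEquiv, by ext v; rfl⟩

theorem IsCH.invertible (hG : IsCH G) (x : EE n) : (G x).IsInvertible :=
  isInvertible_of_pos (G x) (hG.pos x)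

theorem IsCH.cauchy (hG : IsCH G) (x a b : EE n) : G x a b ^ 2 ≤ G x a a * G x b b := by
  obtain ⟨L, hL, -⟩ := exists_det_sq hG x
  rw [hL, hL, hL, sq]
  exact real_inner_mul_inner_self_le _ _

theorem gnorm_nonneg (x v : EE n) : 0 ≤ gnorm G x v := Real.sqrt_nonneg _

theorem gnorm_eq_norm_root {x : EE n} {L : EE n ≃L[ℝ] EE n}
    (hL : ∀ v w, G x v w = inner ℝ (L v) (L w)) (v : EE n) : gnorm G x v = ‖L v‖ := by
  rw [gnorm, hL, real_inner_self_eq_norm_sq, Real.sqrt_sq (norm_nonneg _)]

theorem sq_gnorm (hG : IsCH G) (x v : EE n) : gnorm G x v ^ 2 = G x v v := by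
  obtain ⟨L, hL, -⟩ := exists_det_sq hG x
  rw [gnorm_eq_norm_root hL, hL, real_inner_self_eq_norm_sq]

theorem gnorm_eq_zero (hG : IsCH G) {x v : EE n} : gnorm G x v = 0 ↔ v = 0 := by
  obtain ⟨L, hL, -⟩ := exists_det_sq hG x
  rw [gnorm_eq_norm_root hL, norm_eq_zero, map_eq_zero_iff _ L.injective]

theorem gnorm_smul (hG : IsCH G) (x : EE n) (c : ℝ) (v : EE n) :
    gnorm G x (c • v) = |c| * gnorm G x v := by
  obtain ⟨L, hL, -⟩ := exists_det_sq hG x
  rw [gnorm_eq_norm_root hL, gnorm_eq_norm_root hL, map_smul, norm_smul, Real.norm_eq_abs]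

theorem gnorm_add_le (hG : IsCH G) (x v w : EE n) :
    gnorm G x (v + w) ≤ gnorm G x v + gnorm G x w := by
  obtain ⟨L, hL, -⟩ := exists_det_sq hG x
  rw [gnorm_eq_norm_root hL, gnorm_eq_norm_root hL, gnorm_eq_norm_root hL, map_add]
  exact norm_add_le _ _

theorem continuous_gnorm (hG : IsCH G) :
    Continuous fun q : EE n × EE n => gnorm G q.1 q.2 :=
  Real.continuous_sqrt.comp
    (((hG.smooth.continuous.comp continuous_fst).clm_apply continuous_snd).clm_apply
      continuous_snd)

theorem conorm_nonneg (x : EE n) (p : EE n →L[ℝ] ℝ) : 0 ≤ conorm G x p := Real.sqrt_nonneg _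

/-- The vector dual to a covector. -/
theorem apply_inverse {x : EE n} (h : (G x).IsInvertible) (p : EE n →L[ℝ] ℝ) (v : EE n) :
    G x ((G x).inverse p) v = p v := by
  rw [h.self_apply_inverse p]

theorem conorm_eq_gnorm {x : EE n} (h : (G x).IsInvertible) (p : EE n →L[ℝ] ℝ) :
    conorm G x p = gnorm G x ((G x).inverse p) := by
  rw [conorm, gnorm, apply_inverse h]

theorem sq_conorm (hG : IsCH G) (x : EE n) (p : EE n →L[ℝ] ℝ) :
    conorm G x p ^ 2 = p ((G x).inverse p) := by
  rw [conorm_eq_gnorm (hG.invertible x), sq_gnorm hG, apply_inverse (hG.invertible x)]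

theorem abs_apply_le_root {x : EE n} (h : (G x).IsInvertible) {L : EE n ≃L[ℝ] EE n}
    (hL : ∀ v w, G x v w = inner ℝ (L v) (L w)) (v : EE n) (p : EE n →L[ℝ] ℝ) :
    |p v| ≤ conorm G x p * gnorm G x v := by
  rw [conorm_eq_gnorm h, gnorm_eq_norm_root hL, gnorm_eq_norm_root hL, ← apply_inverse h p v, hL]
  exact abs_real_inner_le_norm _ _

theorem abs_apply_le (hG : IsCH G) (x v : EE n) (p : EE n →L[ℝ] ℝ) :
    |p v| ≤ conorm G x p * gnorm G x v := by
  obtain ⟨L, hL, -⟩ := exists_det_sq hG x
  exact abs_apply_le_root (hG.invertible x) hL v p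

theorem conorm_le_of_inverse {x : EE n} {p : EE n →L[ℝ] ℝ} {C : ℝ}
    (hC : 0 ≤ C) (hb : p ((G x).inverse p) ≤ C * conorm G x p) : conorm G x p ≤ C := by
  rcases le_or_gt (p ((G x).inverse p)) 0 with h0 | h0
  · rw [conorm, Real.sqrt_eq_zero_of_nonpos h0]; exact hC
  · have hs : 0 < conorm G x p := Real.sqrt_pos.2 h0
    have he : conorm G x p * conorm G x p = p ((G x).inverse p) := Real.mul_self_sqrt h0.le
    exact le_of_mul_le_mul_right (he.le.trans hb) hs

theorem conorm_le_of_forall (hG : IsCH G) {x : EE n} {p : EE n →L[ℝ] ℝ} {C : ℝ} (hC : 0 ≤ C)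
    (h : ∀ v, p v ≤ C * gnorm G x v) : conorm G x p ≤ C :=
  conorm_le_of_inverse hC (by
    rw [conorm_eq_gnorm (hG.invertible x)]
    exact h _)

theorem conorm_smul (hG : IsCH G) (x : EE n) (c : ℝ) (p : EE n →L[ℝ] ℝ) :
    conorm G x (c • p) = |c| * conorm G x p := by
  rw [conorm_eq_gnorm (hG.invertible x), conorm_eq_gnorm (hG.invertible x), map_smul,
    gnorm_smul hG]

theorem conorm_eq_zero (hG : IsCH G) {x : EE n} {p : EE n →L[ℝ] ℝ} :
    conorm G x p = 0 ↔ p = 0 := by
  rw [conorm_eq_gnorm (hG.invertible x), gnorm_eq_zero hG]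
  refine ⟨fun h => ?_, fun h => by simp [h]⟩
  have := (hG.invertible x).self_apply_inverse p
  rwa [h, map_zero, eq_comm] at this

theorem continuous_inverse_form (hG : IsCH G) : Continuous fun x => (G x).inverse := by
  refine continuous_iff_continuousAt.2 fun x => ?_
  obtain ⟨e, he⟩ := hG.invertible x
  refine ContinuousAt.comp (g := ContinuousLinearMap.inverse) ?_ hG.smooth.continuous.continuousAt
  rw [← he]
  exact (contDiffAt_map_inverse (𝕜 := ℝ) (n := (0 : WithTop ℕ∞)) e).continuousAt

theorem continuous_conorm (hG : IsCH G) :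
    Continuous fun q : EE n × (EE n →L[ℝ] ℝ) => conorm G q.1 q.2 :=
  Real.continuous_sqrt.comp (continuous_snd.clm_apply
    (((continuous_inverse_form hG).comp continuous_fst).clm_apply continuous_snd))

theorem dens_pos (hG : IsCH G) (x : EE n) : 0 < dens G x := by
  obtain ⟨L, -, hd⟩ := exists_det_sq hG x
  rw [hd]
  exact abs_pos.2 (LinearEquiv.isUnit_det' L.toLinearEquiv).ne_zero

theorem continuous_dens (hG : IsCH G) : Continuous (dens G) :=
  Real.continuous_sqrt.comp (Continuous.matrix_det (continuous_pi fun _ => continuous_pi fun _ =>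
    (hG.smooth.continuous.clm_apply continuous_const).clm_apply continuous_const))

/-- the integral of a continuous compactly supported function against `rVol` -/
theorem integral_rVol (hG : IsCH G) (f : EE n → ℝ) :
    ∫ x, f x ∂rVol G = ∫ x, f x * dens G x := by
  rw [rVol, integral_withDensity_eq_integral_toReal_smul
    (continuous_dens hG).measurable.ennreal_ofReal (ae_of_all _ fun _ => ENNReal.ofReal_lt_top)]
  refine integral_congr_ae (ae_of_all _ fun x => ?_)
  simp [ENNReal.toReal_ofReal (dens_pos hG x).le, mul_comm]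

theorem isFiniteMeasureOnCompacts_rVol (hG : IsCH G) : IsFiniteMeasureOnCompacts (rVol G) := by
  have : IsLocallyFiniteMeasure (rVol G) :=
    IsLocallyFiniteMeasure.withDensity_ofReal (continuous_dens hG)
  infer_instance

/-- An expanding linear map stretches no vector by more than its determinant. -/
theorem norm_le_abs_det_mul (T : EE n →L[ℝ] EE n) (hT : ∀ u, ‖u‖ ≤ ‖T u‖) (u : EE n) :
    ‖T u‖ ≤ |T.det| * ‖u‖ := by
  set T₀ : EE n →ₗ[ℝ] EE n := (T : EE n →ₗ[ℝ] EE n) with hT₀
  set S := T₀.adjoint ∘ₗ T₀ with hS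
  have hsym : S.IsSymmetric := fun a b => by
    simp [hS, LinearMap.adjoint_inner_left, LinearMap.adjoint_inner_right]
  have hfin : Module.finrank ℝ (EE n) = n := finrank_euclideanSpace_fin
  set b := hsym.eigenvectorBasis hfin
  set l := hsym.eigenvalues hfin
  have hdot : ∀ v, inner ℝ (S v) v = ‖T v‖ ^ 2 := fun v => by
    simp [hS, hT₀, LinearMap.adjoint_inner_left]
  have hl : ∀ i, 1 ≤ l i := fun i => by
    have h1 := hdot (b i)
    rw [hsym.apply_eigenvectorBasis hfin i] at h1
    have h2 := hT (b i)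
    rw [b.orthonormal.1 i] at h2
    rw [real_inner_smul_left, real_inner_self_eq_norm_sq, b.orthonormal.1 i] at h1
    norm_num at h1
    change 1 ≤ hsym.eigenvalues hfin i
    nlinarith
  have hdet : T.det ^ 2 = ∏ i, l i := by
    have h1 : LinearMap.det S = ∏ i, l i := by simpa using hsym.det_eq_prod_eigenvalues hfin
    rw [← h1, hS, LinearMap.det_comp, sq]
    congr 1
    have hb := LinearMap.toMatrix_adjoint b b T₀
    have := congrArg Matrix.det hb
    rw [LinearMap.det_toMatrix, Matrix.det_conjTranspose, LinearMap.det_toMatrix, star_trivial]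
      at this
    exact this.symm
  have hle : ∀ i, l i ≤ T.det ^ 2 := fun i => by
    rw [hdet]
    rw [← Finset.mul_prod_erase _ _ (Finset.mem_univ i)]
    exact le_mul_of_one_le_right (zero_le_one.trans (hl i))
      (Finset.one_le_prod fun j _ => hl j)
  have h2 : ‖T u‖ ^ 2 ≤ (|T.det| * ‖u‖) ^ 2 := by
    rw [← hdot, ← b.sum_inner_mul_inner (S u) u, mul_pow, sq_abs,
      ← b.sum_sq_inner_right u, Finset.mul_sum]
    refine Finset.sum_le_sum fun i _ => ?_
    rw [hsym u (b i), hsym.apply_eigenvectorBasis hfin i]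
    simp only [RCLike.ofReal_real_eq_id, id, real_inner_smul_right]
    rw [real_inner_comm u (b i)]
    rw [real_inner_comm (b i) u]
    calc _ = l i * (inner ℝ (b i) u) ^ 2 := by
          rw [real_inner_comm u (b i)]; simp only [b, l]; ring
      _ ≤ _ := mul_le_mul_of_nonneg_right (hle i) (sq_nonneg _)
  exact (pow_le_pow_iff_left₀ (norm_nonneg _) (by positivity) two_ne_zero).1 h2

/-- monotonicity of `√(det A) |p|_{A⁻¹}` in the form `A` -/
theorem conorm_dens_mono (G H : EE n → Form n) (x : EE n) (hGs : ∀ a b, G x a b = G x b a)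
    (hHs : ∀ a b, H x a b = H x b a) (hGp : ∀ a, a ≠ 0 → 0 < G x a a)
    (hle : ∀ a, G x a a ≤ H x a a) (p : EE n →L[ℝ] ℝ) :
    conorm G x p * dens G x ≤ conorm H x p * dens H x := by
  have hHp : ∀ a, a ≠ 0 → 0 < H x a a := fun a ha => (hGp a ha).trans_le (hle a)
  obtain ⟨L, hL, hdL⟩ := exists_root (G x) hGs hGp
  obtain ⟨K, hK, hdK⟩ := exists_root (H x) hHs hHp
  have hiG := isInvertible_of_pos (G x) hGp
  have hiH := isInvertible_of_pos (H x) hHp
  set T : EE n →L[ℝ] EE n := (K : EE n →L[ℝ] EE n).comp (L.symm : EE n →L[ℝ] EE n) with hT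
  have hTexp : ∀ u, ‖u‖ ≤ ‖T u‖ := fun u => by
    have h := hle (L.symm u)
    rw [hL, hK, real_inner_self_eq_norm_sq, real_inner_self_eq_norm_sq,
      L.apply_symm_apply] at h
    exact (pow_le_pow_iff_left₀ (norm_nonneg _) (norm_nonneg _) two_ne_zero).1 h
  have hK' : (K : EE n →L[ℝ] EE n) = T.comp (L : EE n →L[ℝ] EE n) := by
    ext v; simp [hT]
  have hdet : (K : EE n →L[ℝ] EE n).det = T.det * (L : EE n →L[ℝ] EE n).det := by
    rw [hK', ContinuousLinearMap.det, ContinuousLinearMap.toLinearMap_comp, LinearMap.det_comp]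
  have hC : 0 ≤ conorm H x p * |T.det| := mul_nonneg (conorm_nonneg _ _) (abs_nonneg _)
  have h1 : conorm G x p ≤ conorm H x p * |T.det| := by
    refine conorm_le_of_inverse hC ?_
    set q := (G x).inverse p
    calc p q ≤ |p q| := le_abs_self _
      _ ≤ conorm H x p * gnorm H x q := abs_apply_le_root hiH hK q p
      _ ≤ conorm H x p * (|T.det| * ‖L q‖) := by
          refine mul_le_mul_of_nonneg_left ?_ (conorm_nonneg _ _)
          rw [gnorm_eq_norm_root hK, show K q = T (L q) by simp [hT]]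
          exact norm_le_abs_det_mul T hTexp _
      _ = _ := by rw [conorm_eq_gnorm hiG, gnorm_eq_norm_root hL, mul_assoc]
  calc conorm G x p * dens G x ≤ conorm H x p * |T.det| * dens G x :=
        mul_le_mul_of_nonneg_right h1 (Real.sqrt_nonneg _)
    _ = conorm H x p * dens H x := by
        rw [show dens G x = _ from hdL, show dens H x = _ from hdK, hdet, abs_mul, mul_assoc]

end Vale.Agent.P219
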