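import Vale.Agent.P219.Geo.Flow

/-!
# P219 module Geo.Liouville: invariance of the Liouville measure
-/

open scoped ContDiff
open MeasureTheory Set

namespace Vale.Agent.P219

variable {n : ℕ} {G : EE n → Form n}

/-- The determinant as a continuous multilinear map of the rows. -/
private noncomputable def detRows (ι : Type*) [Fintype ι] [DecidableEq ι] :
    ContinuousMultilinearMap ℝ (fun _ : ι => ι → ℝ) ℝ :=
  ⟨(Matrix.detRowAlternating : (ι → ℝ) [⋀^ι]→ₗ[ℝ] ℝ).toMultilinearMap,
    Continuous.matrix_det continuous_id⟩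

/-- Jacobi's formula along a path. -/
private lemma hasDerivAt_det_of_mul {ι : Type*} [Fintype ι] [DecidableEq ι]
    {M : ℝ → Matrix ι ι ℝ} {A : Matrix ι ι ℝ} {s : ℝ}
    (hM : ∀ i j, HasDerivAt (fun r => M r i j) ((A * M s) i j) s) :
    HasDerivAt (fun r => (M r).det) (A.trace * (M s).det) s := by
  have hM' : HasDerivAt (fun r (i : ι) (j : ι) => M r i j) (fun i j => (A * M s) i j) s := by
    refine hasDerivAt_pi.2 fun i => ?_
    exact hasDerivAt_pi.2 fun j => hM i j
  have h := ((detRows ι).hasFDerivAt (x := fun i j => M s i j)).comp_hasDerivAt s hM'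
  refine h.congr_deriv ?_
  rw [ContinuousMultilinearMap.linearDeriv_apply, Matrix.trace, Finset.sum_mul]
  refine Finset.sum_congr rfl fun i _ => ?_
  have hrow : (fun j => (A * M s) i j) = ∑ k, A i k • M s k := by
    funext j
    simp [Matrix.mul_apply, Finset.sum_apply]
  change ((M s).updateRow i (fun j => (A * M s) i j)).det = A.diag i * (M s).det
  rw [hrow, Matrix.det_updateRow_sum]
  rfl

/-- Jacobi's formula for a linear variational equation. -/
private lemma hasDerivAt_clm_det {E : Type*} [NormedAddCommGroup E] [NormedSpace ℝ E]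
    [FiniteDimensional ℝ E] {Φ : ℝ → E →L[ℝ] E} {A : E →L[ℝ] E} {s : ℝ}
    (hΦ : HasDerivAt Φ (A.comp (Φ s)) s) :
    HasDerivAt (fun r => (Φ r).det) (LinearMap.trace ℝ E A.toLinearMap * (Φ s).det) s := by
  let b := Module.finBasis ℝ E
  have hdet : ∀ T : E →L[ℝ] E, T.det = (LinearMap.toMatrix b b T.toLinearMap).det :=
    fun T => (LinearMap.det_toMatrix b T.toLinearMap).symm
  rw [LinearMap.trace_eq_matrix_trace ℝ b]
  simp only [hdet]
  refine hasDerivAt_det_of_mul fun i j => ?_
  have hev := hΦ.clm_apply (hasDerivAt_const s (b j))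
  have hco := ((b.coord i).toContinuousLinearMap).hasFDerivAt.comp_hasDerivAt s hev
  rw [← LinearMap.toMatrix_mul]
  simpa [LinearMap.toMatrix_apply, Function.comp_def, Module.End.mul_apply] using hco

private lemma christoffel_symm (hG : IsCH G) (x u v : EE n) :
    christoffel G x u v = christoffel G x v u := by
  have h : ∀ w, G x (christoffel G x u v - christoffel G x v u) w = 0 := by
    intro w
    have hs : fderiv ℝ G x w u v = fderiv ℝ G x w v u := by
      have hd : DifferentiableAt ℝ G x := (hG.smooth.differentiable (by simp)).differentiableAt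
      have hab : ∀ a b : EE n, HasFDerivAt (fun y => G y a b)
          (((fderiv ℝ G x).flip a).flip b) x := by
        intro a b
        refine ((hd.hasFDerivAt.clm_apply (hasFDerivAt_const a x)).clm_apply
          (hasFDerivAt_const b x)).congr_fderiv ?_
        ext h
        simp
      have h1 := (hab u v).unique ((hab v u).congr_of_eventuallyEq
        (Filter.Eventually.of_forall fun y => hG.symm y u v))
      simpa using congrArg (fun L => L w) h1
    rw [map_sub, sub_apply, christoffel_spec hG, christoffel_spec hG, hs]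
    ring
  refine sub_eq_zero.1 (Classical.not_not.1 fun hne => ?_)
  exact (hG.pos x _ hne).ne' (h _)

/-- Directional derivatives of the metric are symmetric. -/
private lemma fderiv_metric_swap (hG : IsCH G) (x w u v : EE n) :
    fderiv ℝ G x w u v = fderiv ℝ G x w v u := by
  have h1 := christoffel_spec hG x u v w
  have h2 := christoffel_spec hG x v u w
  rw [christoffel_symm hG x u v] at h1
  linarith

/-- The endomorphism `k ↦ Γ(v,k)`. -/
private noncomputable def gam (G : EE n → Form n) (x v : EE n) : EE n →ₗ[ℝ] EE n where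
  toFun k := christoffel G x v k
  map_add' a b := by
    unfold christoffel
    rw [← map_add]
    congr 1
    ext w
    simp
    ring
  map_smul' c a := by
    unfold christoffel
    rw [← map_smul]
    congr 1
    ext w
    simp
    ring

/-- The trace of the derivative of the spray. -/
private lemma trace_fderiv_spray (hG : IsCH G) (x v : EE n) :
    LinearMap.trace ℝ (EE n × EE n) (fderiv ℝ (spray G) (x, v)).toLinearMap
      = -2 * LinearMap.trace ℝ (EE n) (gam G x v) := by
  set L := fderiv ℝ (spray G) (x, v) with hL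
  have hd : HasFDerivAt (spray G) L (x, v) :=
    ((contDiff_spray hG).differentiable (by simp)).differentiableAt.hasFDerivAt
  have hfst : (ContinuousLinearMap.fst ℝ (EE n) (EE n)).comp L =
      ContinuousLinearMap.snd ℝ (EE n) (EE n) :=
    (((ContinuousLinearMap.fst ℝ (EE n) (EE n)).hasFDerivAt.comp (x, v) hd)).unique
      (ContinuousLinearMap.snd ℝ (EE n) (EE n)).hasFDerivAt
  have hsnd : ∀ k, (L (0, k)).2 = -((2 : ℝ) • christoffel G x v k) := by
    intro k
    have hline : HasDerivAt (fun t : ℝ => ((x, v + t • k) : EE n × EE n)) (0, k) 0 :=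
      (hasDerivAt_const (0 : ℝ) x).prodMk
        ((((hasDerivAt_id (0 : ℝ)).smul_const k).const_add v).congr_deriv (one_smul ℝ k))
    have hd0 : HasFDerivAt (spray G) L ((fun t : ℝ => ((x, v + t • k) : EE n × EE n)) 0) := by
      simpa using hd
    have h1 := (ContinuousLinearMap.snd ℝ (EE n) (EE n)).hasFDerivAt.comp_hasDerivAt (0 : ℝ)
      (hd0.comp_hasDerivAt (0 : ℝ) hline)
    have hquad : ∀ t : ℝ, christoffel G x (v + t • k) (v + t • k) = christoffel G x v v +
        (t • ((2 : ℝ) • christoffel G x v k) + (t * t) • christoffel G x k k) := by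
      intro t
      have hlin : ∀ u a b : EE n, ∀ r : ℝ,
          christoffel G x u (a + r • b) = christoffel G x u a + r • christoffel G x u b := by
        intro u a b r
        change gam G x u (a + r • b) = gam G x u a + r • gam G x u b
        rw [map_add, map_smul]
      rw [hlin, christoffel_symm hG x (v + t • k) v, christoffel_symm hG x (v + t • k) k, hlin,
        hlin, christoffel_symm hG x k v]
      module
    have h2 : HasDerivAt (fun t : ℝ => -christoffel G x (v + t • k) (v + t • k))
        (-((2 : ℝ) • christoffel G x v k)) 0 := by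
      simp only [hquad]
      have h3 := ((((hasDerivAt_id (0 : ℝ)).smul_const ((2 : ℝ) • christoffel G x v k)).add
        (((hasDerivAt_id (0 : ℝ)).mul (hasDerivAt_id 0)).smul_const
          (christoffel G x k k))).const_add (christoffel G x v v)).neg
      exact h3.congr_deriv (by simp)
    exact h1.unique h2
  set Lm := L.toLinearMap with hLm
  have hdec : Lm = LinearMap.inl ℝ (EE n) (EE n) ∘ₗ (LinearMap.fst ℝ (EE n) (EE n) ∘ₗ Lm) +
      LinearMap.inr ℝ (EE n) (EE n) ∘ₗ (LinearMap.snd ℝ (EE n) (EE n) ∘ₗ Lm) :=
    LinearMap.ext fun q => Prod.ext (by simp) (by simp)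
  have hz : (LinearMap.fst ℝ (EE n) (EE n) ∘ₗ Lm) ∘ₗ LinearMap.inl ℝ (EE n) (EE n) = 0 := by
    ext1 h
    have := congrArg (fun T : EE n × EE n →L[ℝ] EE n => T (h, 0)) hfst
    simpa [Lm] using this
  have hg : (LinearMap.snd ℝ (EE n) (EE n) ∘ₗ Lm) ∘ₗ LinearMap.inr ℝ (EE n) (EE n)
      = (-2 : ℝ) • gam G x v := by
    ext1 k
    simp [Lm, gam, hsnd]
  rw [hdec, map_add,
    LinearMap.trace_comp_comm' (LinearMap.fst ℝ (EE n) (EE n) ∘ₗ Lm) (LinearMap.inl ℝ (EE n) (EE n)),
    LinearMap.trace_comp_comm' (LinearMap.snd ℝ (EE n) (EE n) ∘ₗ Lm) (LinearMap.inr ℝ (EE n) (EE n)),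
    hz, hg, map_zero, map_smul, zero_add, smul_eq_mul]

/-- The Gram matrix of the metric. -/
private noncomputable def gram (G : EE n → Form n) (x : EE n) : Matrix (Fin n) (Fin n) ℝ :=
  Matrix.of fun i j => G x (EuclideanSpace.single i (1 : ℝ)) (EuclideanSpace.single j (1 : ℝ))

private lemma gram_det_pos (hG : IsCH G) (x : EE n) : 0 < (gram G x).det :=
  Real.sqrt_pos.1 (dens_pos hG x)

private lemma dens_sq (hG : IsCH G) (x : EE n) : dens G x ^ 2 = (gram G x).det :=
  Real.sq_sqrt (gram_det_pos hG x).le

/-- The logarithmic derivative of the volume density along a curve. -/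
private lemma hasDerivAt_gram_det (hG : IsCH G) {c : ℝ → EE n} {v : EE n} {s : ℝ}
    (hc : HasDerivAt c v s) :
    HasDerivAt (fun r => (gram G (c r)).det)
      (2 * LinearMap.trace ℝ (EE n) (gam G (c s) v) * (gram G (c s)).det) s := by
  set x := c s with hx
  set e : Fin n → EE n := fun i => EuclideanSpace.single i (1 : ℝ)
  set b := (EuclideanSpace.basisFun (Fin n) ℝ).toBasis with hb
  have hbe : ∀ i, b i = e i := fun i => by simp [b, e]
  set a : Matrix (Fin n) (Fin n) ℝ := Matrix.of fun i j => fderiv ℝ G x v (e i) (e j) with ha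
  set N : Matrix (Fin n) (Fin n) ℝ := Matrix.of fun w k =>
    fderiv ℝ G x (e k) v (e w) - fderiv ℝ G x (e w) v (e k) with hN
  set g := gram G x with hg
  set C := LinearMap.toMatrix b b (gam G x v) with hC
  have hgs : g.transpose = g := by
    ext i j
    exact hG.symm x _ _
  have has : a.transpose = a := by
    ext i j
    exact fderiv_metric_swap hG x v _ _
  have hNs : N.transpose = -N := by
    ext i j
    simp [N]
  have hgC : g * C = (1 / 2 : ℝ) • (a + N) := by
    ext w k
    have hsum : christoffel G x v (e k) = ∑ l, C l k • e l := by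
      conv_lhs => rw [← b.sum_repr (christoffel G x v (e k))]
      refine Finset.sum_congr rfl fun l _ => ?_
      rw [hC, LinearMap.toMatrix_apply, hbe, hbe]
      rfl
    have h := christoffel_spec hG x v (e k) (e w)
    rw [hsum, map_sum, sum_apply] at h
    rw [Matrix.mul_apply]
    calc ∑ l, g w l * C l k = ∑ l, G x (C l k • e l) (e w) := by
          refine Finset.sum_congr rfl fun l _ => ?_
          rw [map_smul, smul_apply, smul_eq_mul, hG.symm x (e l) (e w), mul_comm]
          rfl
      _ = _ := h
      _ = ((1 / 2 : ℝ) • (a + N)) w k := by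
          have h1 : fderiv ℝ G x v (e k) (e w) = fderiv ℝ G x v (e w) (e k) :=
            fderiv_metric_swap hG x v _ _
          simp [a, N, h1]
          ring
  have hunit : IsUnit g.det := (gram_det_pos hG x).ne'.isUnit
  have hder : HasDerivAt (fun r => (gram G (c r)).det) ((a * g⁻¹).trace * g.det) s := by
    refine hasDerivAt_det_of_mul (A := a * g⁻¹) fun i j => ?_
    rw [← hx, ← hg, Matrix.mul_assoc, Matrix.nonsing_inv_mul _ hunit, Matrix.mul_one]
    have hGd : HasDerivAt (fun r => G (c r)) (fderiv ℝ G x v) s :=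
      ((hG.smooth.differentiable (by simp)).differentiableAt.hasFDerivAt).comp_hasDerivAt s hc
    have h := (hGd.clm_apply (hasDerivAt_const s (e i))).clm_apply (hasDerivAt_const s (e j))
    simpa [gram, a, e] using h
  refine hder.congr_deriv ?_
  have hCtr : LinearMap.trace ℝ (EE n) (gam G x v) = C.trace :=
    LinearMap.trace_eq_matrix_trace ℝ b _
  have hCeq : C = g⁻¹ * ((1 / 2 : ℝ) • (a + N)) := by
    rw [← hgC, ← Matrix.mul_assoc, Matrix.nonsing_inv_mul _ hunit, Matrix.one_mul]
  have hinv : g⁻¹.transpose = g⁻¹ := by rw [Matrix.transpose_nonsing_inv, hgs]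
  have hNtr : (g⁻¹ * N).trace = 0 := by
    have h := Matrix.trace_transpose (g⁻¹ * N)
    rw [Matrix.transpose_mul, hNs, hinv, Matrix.neg_mul, Matrix.trace_neg,
      Matrix.trace_mul_comm] at h
    linarith
  rw [hCtr, hCeq, Matrix.mul_smul, Matrix.trace_smul, Matrix.mul_add, Matrix.trace_add, hNtr,
    add_zero, smul_eq_mul, Matrix.trace_mul_comm a]
  ring

theorem det_fderiv_flowG (hG : IsCH G) (s : ℝ) (q : EE n × EE n) :
    |(fderiv ℝ (flowG hG s) q).det| * dens G (flowG hG s q).1 ^ 2 = dens G q.1 ^ 2 := by
  have hder : ∀ r, HasDerivAt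
      (fun r => (fderiv ℝ (flowG hG r) q).det * (gram G (flowG hG r q).1).det) 0 r := by
    intro r
    have h1 := hasDerivAt_clm_det (hasDerivAt_fderiv_flowG hG q r)
    have h2 : HasDerivAt (fun t => (flowG hG t q).1) (flowG hG r q).2 r :=
      (ContinuousLinearMap.fst ℝ (EE n) (EE n)).hasFDerivAt.comp_hasDerivAt r
        (hasDerivAt_flowG hG q r)
    refine (h1.mul (hasDerivAt_gram_det hG h2)).congr_deriv ?_
    rw [trace_fderiv_spray hG (flowG hG r q).1 (flowG hG r q).2]
    ring
  have hc := is_const_of_deriv_eq_zero (fun r => (hder r).differentiableAt)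
    (fun r => (hder r).deriv) s 0
  have h0 : flowG hG 0 = id := funext (flowG_zero hG)
  simp only [h0, fderiv_id, id_eq] at hc
  have hid : (ContinuousLinearMap.id ℝ (EE n × EE n)).det = 1 := LinearMap.det_id
  rw [hid, one_mul] at hc
  have hg0 := gram_det_pos hG (flowG hG s q).1
  rw [dens_sq hG, dens_sq hG, ← abs_of_pos hg0, ← abs_mul, hc,
    abs_of_pos (gram_det_pos hG q.1)]

theorem measurePreserving_flowG (hG : IsCH G) (s : ℝ) :
    MeasurePreserving (flowG hG s) (phase G) (phase G) := by
  have hcont : Continuous (flowG hG s) := (contDiff_flowG hG s).continuous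
  refine ⟨hcont.measurable, ?_⟩
  have hrev : ∀ a : ℝ, ∀ q, flowG hG (-a) (flowG hG a q) = q := fun a q => by
    rw [← flowG_add, neg_add_cancel, flowG_zero]
  have hinj : Function.Injective (flowG hG s) := Function.LeftInverse.injective (hrev s)
  have hsurj : Function.Surjective (flowG hG s) := fun q =>
    ⟨flowG hG (-s) q, by simpa using hrev (-s) q⟩
  have : (volume : Measure (EE n × EE n)).IsAddHaarMeasure := by
    rw [Measure.volume_eq_prod]; infer_instance
  refine Measure.ext fun A hA => ?_
  rw [Measure.map_apply hcont.measurable hA, phase, withDensity_apply _ hA,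
    withDensity_apply _ (hcont.measurable hA)]
  conv_rhs => rw [← Set.image_preimage_eq A hsurj]
  rw [lintegral_image_eq_lintegral_abs_det_fderiv_mul volume (hcont.measurable hA)
    (fun q _ => (((contDiff_flowG hG s).differentiable (by simp)) q).hasFDerivAt.hasFDerivWithinAt)
    hinj.injOn]
  refine setLIntegral_congr_fun (hcont.measurable hA) fun q _ => ?_
  rw [← ENNReal.ofReal_mul (abs_nonneg _), det_fderiv_flowG hG s q]

end Vale.Agent.P219
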